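import Vale.Agent.P146.H698.SkelU
import Vale.Agent.P146.H615.Ex

/-!
# P146: the grid path with the modulated field revealed after the main part

* `ppg_le`, `rrg_le_one`, `fag_le`: trivial bounds;
* `law_upU`: the path on the grid; main part with the modulated field hidden (`L.rr S · u`), then all
  the rows, the plain field up to `u'` and all the modulated field, then the near end (`L.rrg`);
* `kupU`: the same in the form which the assembly consumes (`H197.kup`).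
-/

open MeasureTheory ProbabilityTheory Set

namespace Vale.Agent.P146.H698

open Vale.Agent.P157.Lv hiding Dep
open Vale.Agent.P146.H425 Vale.Agent.P146.H646
open Vale.Agent.P146.H196 Vale.Agent.P146.H246 Vale.Agent.P146.H347 Vale.Agent.P146.H325
  Vale.Agent.P146.H816 Vale.Agent.P146.H119 Vale.Agent.P146.H475 Vale.Agent.P146.H418
open Vale.Agent.P146.H281.U Vale.Agent.P146.H9.U Vale.Agent.P146.H698.Br

set_option linter.unusedSectionVars false

section triv

variable (L : Law) (hl : 0 < L.lam) (hη : 0 ≤ L.η)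
include hl hη

lemma ppg_le (S : Finset (Fin L.n)) (t u g : ℝ) : L.ppg S t u g ≤ (L.n : ℝ) ^ 2 / 2 := by
  have hL := lev_U (n := L.n) L.b (cbU t) (L.cfg u g) (nuL_fin L hl hη) (nuL_ne L hl hη)
    (amU_aG L hη)
  have hG := gmU (n := L.n) L.b (cbU t) (L.cfg u g) L.η (nuL_fin L hl hη) (nuL_ne L hl hη)
    (amU_aG L hη)
  unfold Law.ppg
  rw [← qU2_eq L.b (cbU t) (L.cfg u g) (nuL_fin L hl hη) (nuL_ne L hl hη) (amU_aG L hη)]
  unfold q2
  have h1 : ∀ p ∈ ps S, en L.x (lzm (muU L.nuL L.n) 1 (SU L.b (cbU t) (L.cfg u g) L.aG))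
      (avm (muU L.nuL L.n) 1 (SU L.b (cbU t) (L.cfg u g) L.aG) fun w => SkS p w.2)
      (Kset S {true} (FLU Bool)) ≤ 1 := by
    intro p _
    refine en_le hL.lip L.x (hL.b2 p) (fun z => ?_) _
    have h1 := hG.abs_av_le 1 (h := fun w : (Unit → ℝ) × Xs L.n => SkS p w.2)
      (bm_pair L p).meas (C := 1) (fun w => H281.U.abs_SkS p w.2) z
    rw [← sq_abs]
    exact pow_le_one₀ (abs_nonneg _) h1
  refine (Finset.sum_le_card_nsmul _ _ _ h1).trans ?_
  rw [nsmul_eq_mul, mul_one]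
  have h2 := two_card_pair L.n
  have h3 : ((ps S).card : ℝ) ≤ Fintype.card (Pair L.n) := by
    exact_mod_cast Finset.card_le_univ _
  linarith

lemma rrg_le_one (S : Finset (Fin L.n)) (t u g : ℝ) : L.rrg S t u g ≤ 1 := by
  have h := ppg_le L hl hη S t u g
  unfold Law.rrg
  rcases (sq_nonneg (L.n : ℝ)).eq_or_lt with h0 | h0
  · rw [← h0, div_zero]
    exact zero_le_one
  · rw [div_le_one h0]
    linarith

/-- the amplitude changes the mean of a spin by `η` at most -/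
lemma fag_le (S : Finset (Fin L.n)) (t u g : ℝ) :
    L.fag S t u g ≤ 2 * L.ffg S t u g + 2 * (L.n * L.η ^ 2) := by
  have hL := lev_U (n := L.n) L.b (cbU t) (L.cfg u g) (nuL_fin L hl hη) (nuL_ne L hl hη)
    (amU_aG L hη)
  have hG := gmU (n := L.n) L.b (cbU t) (L.cfg u g) L.η (nuL_fin L hl hη) (nuL_ne L hl hη)
    (amU_aG L hη)
  set E := (SU L.b (cbU t) (L.cfg u g) L.aG : Co L.n Bool (Bool × Bool) → _) with hE
  set F := lzm (muU L.nuL L.n) 1 E with hF
  set K : Finset (Co L.n Bool (Bool × Bool)) := Kset S {true} (FLU Bool) with hK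
  have b1 : ∀ i : Fin L.n, BM (avm (muU L.nuL L.n) 1 E
      fun w => (fun _ => (1 : ℝ)) w.1 * sp w.2 i) := fun i => bm hG 1 (bm_site L i)
  have b2 : ∀ i : Fin L.n, BM (avm (muU L.nuL L.n) 1 E
      fun w => (fun θ : Unit → ℝ => al L.η (θ ())) w.1 * sp w.2 i) :=
    fun i => bm hG 1 (bm_asite L hη i)
  have e1 : L.ffg S t u g = q1 L.x F (fun i => avm (muU L.nuL L.n) 1 E
      fun w => (fun _ => (1 : ℝ)) w.1 * sp w.2 i) S K :=
    (qU1_eq L.b (cbU t) (L.cfg u g) (nuL_fin L hl hη) (nuL_ne L hl hη) (amU_aG L hη)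
      (f := fun _ => (1 : ℝ)) measurable_const (C := 1) (fun _ => by simp) S K).symm
  have e2 : L.fag S t u g = q1 L.x F (fun i => avm (muU L.nuL L.n) 1 E
      fun w => (fun θ : Unit → ℝ => al L.η (θ ())) w.1 * sp w.2 i) S K :=
    (qU1_eq L.b (cbU t) (L.cfg u g) (nuL_fin L hl hη) (nuL_ne L hl hη) (amU_aG L hη)
      (f := fun θ : Unit → ℝ => al L.η (θ ()))
      ((measurable_al L.η).comp (measurable_pi_apply ())) (C := 1 + L.η)
      (fun θ => abs_al_le' hη (θ ())) S K).symm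
  rw [e1, e2]
  unfold q1
  rw [Finset.mul_sum]
  have hw := wt_exp hL.lip L.x
  have h1 : ∀ i ∈ S, en L.x F (avm (muU L.nuL L.n) 1 E
      fun w => (fun θ : Unit → ℝ => al L.η (θ ())) w.1 * sp w.2 i) K ≤
      2 * en L.x F (avm (muU L.nuL L.n) 1 E fun w => (fun _ => (1 : ℝ)) w.1 * sp w.2 i) K +
        2 * L.η ^ 2 := by
    intro i _
    set f : (Unit → ℝ) × Xs L.n → ℝ := fun w => (fun _ => (1 : ℝ)) w.1 * sp w.2 i with hf
    set f' : (Unit → ℝ) × Xs L.n → ℝ :=
      fun w => (fun θ : Unit → ℝ => al L.η (θ ())) w.1 * sp w.2 i with hf'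
    have e3 : ∀ z, avm (muU L.nuL L.n) 1 E f' z = avm (muU L.nuL L.n) 1 E f z -
        avm (muU L.nuL L.n) 1 E (fun w => f w - f' w) z := by
      intro z
      rw [hG.av_sub 1 (bm_site L i) (bm_asite L hη i)]
      ring
    have bD : BM (avm (muU L.nuL L.n) 1 E fun w => f w - f' w) :=
      bm hG 1 ((bm_site L i).sub (bm_asite L hη i))
    have hD : ∀ z, |avm (muU L.nuL L.n) 1 E (fun w => f w - f' w) z| ≤ L.η := by
      intro z
      refine hG.abs_av_le 1 ((bm_site L i).sub (bm_asite L hη i)).meas (fun w => ?_) z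
      have e4 : f w - f' w = -((al L.η (w.1 ()) - 1) * sp w.2 i) := by
        simp only [hf, hf']
        ring
      rw [e4, abs_neg, abs_mul]
      have h3 := H281.U.abs_sp w.2 i
      have h4 := abs_al_sub hη (w.1 ())
      have h5 := abs_nonneg (al L.η (w.1 ()) - 1)
      nlinarith [abs_nonneg (sp w.2 i)]
    have e5 : ∀ z, cx (gm _) K (fun z => Real.exp (L.x * F z))
        (avm (muU L.nuL L.n) 1 E f') z ^ 2 ≤
        2 * cx (gm _) K (fun z => Real.exp (L.x * F z)) (avm (muU L.nuL L.n) 1 E f) z ^ 2 +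
          2 * L.η ^ 2 := by
      intro z
      have e6 : cx (gm _) K (fun z => Real.exp (L.x * F z)) (avm (muU L.nuL L.n) 1 E f') z =
          cx (gm _) K (fun z => Real.exp (L.x * F z)) (avm (muU L.nuL L.n) 1 E f) z -
          cx (gm _) K (fun z => Real.exp (L.x * F z))
            (avm (muU L.nuL L.n) 1 E (fun w => f w - f' w)) z := by
        rw [← H646.cx_sub hw (b1 i) bD]
        congr 1
        funext z
        exact e3 z
      rw [e6]
      have h6 := hw.abs_cx_le K bD hD z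
      have h7 := sq_le_sq' (by linarith [(abs_le.1 h6).1]) (abs_le.1 h6).2
      nlinarith [sq_nonneg (cx (gm _) K (fun z => Real.exp (L.x * F z))
        (avm (muU L.nuL L.n) 1 E f) z + cx (gm _) K (fun z => Real.exp (L.x * F z))
            (avm (muU L.nuL L.n) 1 E (fun w => f w - f' w)) z)]
    unfold en
    have h8 := H615.ex_mono hw (H615.bsq (hw.bm_cx K (b2 i)))
      ((H615.bcm 2 (H615.bsq (hw.bm_cx K (b1 i)))).add (BM.const (2 * L.η ^ 2))) e5
    rw [H615.ex_add hw (H615.bcm 2 (H615.bsq (hw.bm_cx K (b1 i)))) (BM.const (2 * L.η ^ 2)),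
      H615.ex_cmul, H615.ex_const hw] at h8
    exact h8
  refine (Finset.sum_le_sum h1).trans ?_
  rw [Finset.sum_add_distrib]
  have h2 : ∑ _i ∈ S, 2 * L.η ^ 2 ≤ 2 * (L.n * L.η ^ 2) := by
    rw [Finset.sum_const, nsmul_eq_mul]
    have h3 : (S.card : ℝ) ≤ L.n := by
      have := Finset.card_le_univ S
      rw [Fintype.card_fin] at this
      exact_mod_cast this
    nlinarith [sq_nonneg L.η]
  linarith

end triv

section path

variable (L : Law) {h u u' : ℝ} {N N' : ℕ}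

/-- **The path on the grid, the modulated field revealed after the main part.** -/
theorem law_upU (hl : 0 < L.lam) (hη : 0 ≤ L.η) (hx : 0 < L.x) (hv : 0 < L.vp) (hs : 0 < L.s)
    (hh : 0 ≤ h) (h0 : 0 ≤ u) (h1 : u ≤ u') (h2 : u' ≤ 1) (hn : 0 < L.n) (hN : N ≤ N')
    (S : Finset (Fin L.n)) :
    L.KA ≤ L.x ^ 2 / 2 * (u * L.vp) * L.ff S 0 u +
      L.n * L.x ^ 2 * L.b ^ 2 / 4 * ∑ l ∈ Finset.range N, (gg h l - gg h (l + 1)) *
        L.rr S (1 - gg h (l + 1)) u +
      L.x ^ 2 / 2 * (L.b ^ 2 / L.n * (2 * (L.n - S.card) / L.n) *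
          L.ppg Finset.univ (1 - gg h N) u' 1 +
        L.vp * ((L.n - S.card) / L.n) * L.ffg Finset.univ (1 - gg h N) u' 1 +
        (u' - u) * L.vp * L.ffg Finset.univ (1 - gg h N) u' 1 +
        L.s ^ 2 * L.fag Finset.univ (1 - gg h N) u' 1) +
      L.n * L.x ^ 2 * L.b ^ 2 / 4 * (∑ l ∈ Finset.Ico N N', (gg h l - gg h (l + 1)) *
        L.rrg Finset.univ (1 - gg h (l + 1)) u' 1 + gg h N') +
      L.x ^ 2 / 2 * (L.n * ((1 - u') * L.vp)) := by
  have hn' : (0 : ℝ) < L.n := by exact_mod_cast hn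
  have hu1 : u ≤ 1 := h1.trans h2
  have hu'0 : 0 ≤ u' := h0.trans h1
  have hU := kpathG_upper (n := L.n) (S := S) (BL := BG N') (FL := {0}) (FL' := {0, 1}) (N := N)
    (N' := N' + 1) L.b (cG h N') (cH L.vp u u') L.s (x := L.x) L.c hl hη hx hn (BG_mono N')
    (BG_zero N') (by omega) (BG_top N') (by simp)
  rw [KL_can hl hη hv (shr_top hh N') (shr_H hv.le h0 h1 h2)] at hU
  have hKA : KAc L.n L.b L.vp L.s L.lam L.η L.c L.x = L.KA := rfl
  rw [hKA] at hU
  obtain ⟨gN0, gN1⟩ := one_sub_gg hh N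
  have cN : 0 ≤ (L.n : ℝ) - S.card := by
    have := Finset.card_le_univ S
    rw [Fintype.card_fin] at this
    exact sub_nonneg.2 (by exact_mod_cast this)
  -- shares of the fields
  have tH := shr_H hv.le h0 h1 h2
  have tH1 := shr_H1 hv.le h0 h1 h2
  have tH0 := shr_H0 hv.le h0 h1 h2
  have tB := shr_top hh N'
  -- the numbers at the level `N`
  have c2 : Q2 L.n L.b (cG h N') (cH L.vp u u') L.s L.lam L.η L.c L.x Finset.univ
      (H119.Kgs Finset.univ (BG N' N) {0, 1} Finset.univ) =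
      L.ppg Finset.univ (1 - gg h N) u' 1 :=
    Q2_gcan L hl hη hv hs tB tH tH1 (shr_BG hh hN) gN0 gN1 hu'0 h2 true Finset.univ
  have c1 : Q1 L.n L.b (cG h N') (cH L.vp u u') L.s L.lam L.η L.c L.x Finset.univ
      (H119.Kgs Finset.univ (BG N' N) {0, 1} Finset.univ) =
      L.ffg Finset.univ (1 - gg h N) u' 1 :=
    Q1_gcan L hl hη hv hs tB tH tH1 (shr_BG hh hN) gN0 gN1 hu'0 h2 true Finset.univ
  have cA : QG L.n L.b (cG h N') (cH L.vp u u') L.s L.lam L.η L.c L.x Finset.univ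
      (H119.Kgs Finset.univ (BG N' N) {0, 1} Finset.univ) =
      L.fag Finset.univ (1 - gg h N) u' 1 :=
    QG_gcan L hl hη hv hs tB tH tH1 (shr_BG hh hN) gN0 gN1 hu'0 h2 true Finset.univ
  -- the field stage
  have c0 : Q1 L.n L.b (cG h N') (cH L.vp u u') L.s L.lam L.η L.c L.x S (Kset S ∅ {0}) =
      L.ff S 0 u := by
    have := sh_G0 (h := h) (N' := N') (l := 0) hh (Nat.zero_le _) hv.le h0 h1 h2
    rw [BG_zero, gg_zero, sub_self] at this
    exact Q1_can hl hη hv this le_rfl zero_le_one h0 hu1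
  rw [c0, c1, c2, cA, tH0, tH1, tH, shr_BG hh hN] at hU
  -- the main sum
  have d1 : ∑ l ∈ Finset.range N, L.x ^ 2 * L.b ^ 2 / (2 * L.n) *
      (shr (cG h N') (BG N' (l + 1)) - shr (cG h N') (BG N' l)) *
        Q2 L.n L.b (cG h N') (cH L.vp u u') L.s L.lam L.η L.c L.x S
          (Kset S (BG N' (l + 1)) {0}) =
      L.n * L.x ^ 2 * L.b ^ 2 / 4 * ∑ l ∈ Finset.range N, (gg h l - gg h (l + 1)) *
        L.rr S (1 - gg h (l + 1)) u := by
    rw [Finset.mul_sum]
    refine Finset.sum_congr rfl fun l hl' => ?_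
    have hlN : l < N := Finset.mem_range.1 hl'
    obtain ⟨g0, g1⟩ := one_sub_gg hh (l + 1)
    rw [Q2_can hl hη hv (sh_G0 (l := l + 1) hh (by omega) hv.le h0 h1 h2) g0 g1 h0 hu1,
      shr_BG hh (show l ≤ N' by omega), shr_BG hh (show l + 1 ≤ N' by omega)]
    have e1 : L.rr S (1 - gg h (l + 1)) u =
      2 * ppc L.n L.b L.vp L.s L.lam L.η L.c L.x S (1 - gg h (l + 1)) u / L.n ^ 2 := rfl
    rw [e1]
    field_simp
    ring
  -- the near end
  have d2 : ∑ l ∈ Finset.Ico N (N' + 1), L.x ^ 2 * L.b ^ 2 / (2 * L.n) *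
      (shr (cG h N') (BG N' (l + 1)) - shr (cG h N') (BG N' l)) *
        Q2 L.n L.b (cG h N') (cH L.vp u u') L.s L.lam L.η L.c L.x Finset.univ
          (H119.Kgs Finset.univ (BG N' (l + 1)) {0, 1} Finset.univ) ≤
      L.n * L.x ^ 2 * L.b ^ 2 / 4 * (∑ l ∈ Finset.Ico N N', (gg h l - gg h (l + 1)) *
        L.rrg Finset.univ (1 - gg h (l + 1)) u' 1 + gg h N') := by
    rw [Finset.sum_Ico_succ_top hN, mul_add, Finset.mul_sum]
    refine add_le_add (le_of_eq ?_) ?_
    · refine Finset.sum_congr rfl fun l hl' => ?_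
      have hlN : l < N' := (Finset.mem_Ico.1 hl').2
      obtain ⟨g0, g1⟩ := one_sub_gg hh (l + 1)
      have e2 : Q2 L.n L.b (cG h N') (cH L.vp u u') L.s L.lam L.η L.c L.x Finset.univ
          (H119.Kgs Finset.univ (BG N' (l + 1)) {0, 1} Finset.univ) =
          L.ppg Finset.univ (1 - gg h (l + 1)) u' 1 :=
        Q2_gcan L hl hη hv hs tB tH tH1 (shr_BG hh (by omega)) g0 g1 hu'0 h2 true Finset.univ
      rw [e2, shr_BG hh (show l ≤ N' by omega), shr_BG hh (show l + 1 ≤ N' by omega)]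
      unfold Law.rrg
      field_simp
      ring
    · rw [BG_top, shr_top hh, shr_BG hh le_rfl]
      have e1 := Q2_le (n := L.n) (b := L.b) (cB := cG h N') (cF := cH L.vp u u') (s := L.s)
        (c := L.c) (x := L.x) hl hη Finset.univ
          (H119.Kgs Finset.univ Finset.univ {0, 1} Finset.univ)
      have e2 : 0 ≤ L.x ^ 2 * L.b ^ 2 / (2 * L.n) * (1 - (1 - gg h N')) := by
        have := gg_pos hh N'
        have : 0 ≤ 1 - (1 - gg h N') := by linarith
        positivity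
      refine (mul_le_mul_of_nonneg_left e1 e2).trans (le_of_eq ?_)
      field_simp
      ring
  rw [d1] at hU
  -- the rows
  have p0 := ppg_nonneg L hl hη Finset.univ (1 - gg h N) u' 1
  have q0 := ffg_nonneg L hl hη Finset.univ (1 - gg h N) u' 1
  have b2 : L.b ^ 2 / L.n * (1 - gg h N) * (2 * ((L.n - S.card : ℝ) / L.n)) *
      L.ppg Finset.univ (1 - gg h N) u' 1 ≤
      L.b ^ 2 / L.n * (2 * (L.n - S.card) / L.n) * L.ppg Finset.univ (1 - gg h N) u' 1 := by
    have e1 : L.b ^ 2 / L.n * (1 - gg h N) * (2 * ((L.n - S.card : ℝ) / L.n)) =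
        (1 - gg h N) * (L.b ^ 2 / L.n * (2 * (L.n - S.card) / L.n)) := by ring
    rw [e1]
    refine mul_le_mul_of_nonneg_right ?_ p0
    exact mul_le_of_le_one_left (by positivity) gN1
  have b1 : (u' * L.vp - u * L.vp + (L.n - S.card : ℝ) / L.n * (u * L.vp)) *
      L.ffg Finset.univ (1 - gg h N) u' 1 ≤
      L.vp * ((L.n - S.card) / L.n) * L.ffg Finset.univ (1 - gg h N) u' 1 +
        (u' - u) * L.vp * L.ffg Finset.univ (1 - gg h N) u' 1 := by
    have e1 : (L.n - S.card : ℝ) / L.n * (u * L.vp) ≤ L.vp * ((L.n - S.card) / L.n) := by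
      have e2 : (L.n - S.card : ℝ) / L.n * (u * L.vp) =
        u * (L.vp * ((L.n - S.card) / L.n)) := by ring
      rw [e2]
      exact mul_le_of_le_one_left (by positivity) hu1
    have e3 := mul_le_mul_of_nonneg_right e1 q0
    have e4 : (u' * L.vp - u * L.vp + (L.n - S.card : ℝ) / L.n * (u * L.vp)) *
      L.ffg Finset.univ (1 - gg h N) u' 1 = (L.n - S.card : ℝ) / L.n * (u * L.vp) *
        L.ffg Finset.univ (1 - gg h N) u' 1 +
        (u' - u) * L.vp * L.ffg Finset.univ (1 - gg h N) u' 1 := by ring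
    rw [e4]
    linarith
  have x2 : 0 ≤ L.x ^ 2 / 2 := by positivity
  have b4 := mul_le_mul_of_nonneg_left (add_le_add b2 b1) x2
  have b5 : L.x ^ 2 / 2 * (L.n * (L.vp - u' * L.vp)) = L.x ^ 2 / 2 * (L.n * ((1 - u') * L.vp)) := by
    ring
  rw [b5] at hU
  linarith

/-- **The path from above, the modulated field revealed after the main part**, in the form which
the assembly consumes. -/
theorem kupU (hl : 0 < L.lam) (hη : 0 ≤ L.η) (hx : 0 < L.x) (hv : 0 < L.vp) (hs : 0 < L.s)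
    (hb : L.b ≠ 0) (hn : 0 < L.n) {q0 q1 qa C1 X : ℝ} (hh : 0 < h) (hh1 : h ≤ 1) (h0 : 0 ≤ u)
    (h1 : u ≤ u') (h2 : u' ≤ 1) (hN : N ≤ N') (S : Finset (Fin L.n)) (hX0 : 0 ≤ X)
    (hq0 : L.ff S 0 u ≤ L.n * q0) (hq1 : L.ffg Finset.univ (1 - gg h N) u' 1 ≤ L.n * q1)
    (hqa : L.fag Finset.univ (1 - gg h N) u' 1 ≤ L.n * qa)
    (hC1 : L.rrg Finset.univ (1 - gg h N) u' 1 ≤ C1)
    (hX : ∀ T ∈ Icc (gg h N') (gg h N), T * L.rrg Finset.univ (1 - T) u' 1 ≤ X) :
    L.KA ≤ L.n * L.x ^ 2 * L.b ^ 2 / 4 * (∑ l ∈ Finset.range N, (gg h l - gg h (l + 1)) *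
        L.rr S (1 - gg h (l + 1)) u +
      (2 / L.b ^ 2 * L.vp * (u * q0 + (((L.n : ℝ) - S.card) / L.n + (u' - u)) * q1 + (1 - u')) +
        2 / L.b ^ 2 * (L.s ^ 2 * qa) + 2 * (((L.n : ℝ) - S.card) / L.n) * C1 +
        2 * X * Real.log (gg h N / gg h N') + gg h N')) := by
  have hK := law_upU L hl hη hx hv hs hh.le h0 h1 h2 hn hN S
  have hn' : (0 : ℝ) < L.n := by exact_mod_cast hn
  have hb2 : 0 < L.b ^ 2 := by positivity
  have cN : 0 ≤ ((L.n : ℝ) - S.card) / L.n := by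
    have := Finset.card_le_univ S
    rw [Fintype.card_fin] at this
    exact div_nonneg (sub_nonneg.2 (by exact_mod_cast this)) hn'.le
  set δ := ((L.n : ℝ) - S.card) / L.n with hδ
  have k6 : ∑ l ∈ Finset.Ico N N', (gg h l - gg h (l + 1)) *
      L.rrg Finset.univ (1 - gg h (l + 1)) u' 1 =
      ∑ l ∈ Finset.Ico N N', (gg h l - gg h (l + 1)) *
        (fun T => L.rrg Finset.univ (1 - T) u' 1) (gg h (l + 1)) := rfl
  rw [k6] at hK
  have k7 := H197.near_sum (r := fun T => L.rrg Finset.univ (1 - T) u' 1) hh hh1 hN hX0 hX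
  refine hK.trans ?_
  set A := (L.n : ℝ) * L.x ^ 2 * L.b ^ 2 / 4 with hA
  have hA0 : 0 ≤ A := by positivity
  set Sm1 := ∑ l ∈ Finset.range N, (gg h l - gg h (l + 1)) * L.rr S (1 - gg h (l + 1)) u
  set Nr := ∑ l ∈ Finset.Ico N N', (gg h l - gg h (l + 1)) *
        (fun T => L.rrg Finset.univ (1 - T) u' 1) (gg h (l + 1))
  set F1 := L.ffg Finset.univ (1 - gg h N) u' 1
  set Fa := L.fag Finset.univ (1 - gg h N) u' 1
  set F0 := L.ff S 0 u
  have hP1 : 2 * L.ppg Finset.univ (1 - gg h N) u' 1 ≤ (L.n : ℝ) ^ 2 * C1 := by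
    have h3 := hC1
    unfold Law.rrg at h3
    rw [div_le_iff₀ (by positivity)] at h3
    linarith
  set P1 := L.ppg Finset.univ (1 - gg h N) u' 1
  have hF0 : L.x ^ 2 / 2 * (u * L.vp) * F0 ≤ A * (2 / L.b ^ 2 * L.vp * (u * q0)) := by
    have : A * (2 / L.b ^ 2 * L.vp * (u * q0)) = L.x ^ 2 / 2 * (u * L.vp) * (L.n * q0) := by
      rw [hA]
      field_simp
      ring
    rw [this]
    exact mul_le_mul_of_nonneg_left hq0 (by positivity)
  have hc1 : ((L.n : ℝ) - S.card) = L.n * δ := by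
    rw [hδ]
    field_simp
  have hR : L.x ^ 2 / 2 * (L.b ^ 2 / L.n * (2 * ((L.n : ℝ) - S.card) / L.n) * P1 +
      L.vp * (((L.n : ℝ) - S.card) / L.n) * F1 + (u' - u) * L.vp * F1 + L.s ^ 2 * Fa) ≤
      A * (2 / L.b ^ 2 * L.vp * ((δ + (u' - u)) * q1) + 2 / L.b ^ 2 * (L.s ^ 2 * qa) +
        2 * δ * C1) := by
    have e1 : A * (2 / L.b ^ 2 * L.vp * ((δ + (u' - u)) * q1) + 2 / L.b ^ 2 * (L.s ^ 2 * qa) +
          2 * δ * C1) =
        L.x ^ 2 / 2 * (L.b ^ 2 * δ * (L.n * C1) + L.vp * δ * (L.n * q1) +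
          (u' - u) * L.vp * (L.n * q1) + L.s ^ 2 * (L.n * qa)) := by
      rw [hA]
      field_simp
      ring
    rw [e1, hc1]
    refine mul_le_mul_of_nonneg_left ?_ (by positivity)
    have e2 : L.b ^ 2 / L.n * (2 * (L.n * δ) / L.n) * P1 ≤ L.b ^ 2 * δ * (L.n * C1) := by
      have e3 : L.b ^ 2 / L.n * (2 * (L.n * δ) / L.n) * P1 = L.b ^ 2 * δ / L.n * (2 * P1) := by
        field_simp
      have e4 : L.b ^ 2 * δ * (L.n * C1) = L.b ^ 2 * δ / L.n * ((L.n : ℝ) ^ 2 * C1) := by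
        field_simp
      rw [e3, e4]
      exact mul_le_mul_of_nonneg_left hP1 (by positivity)
    have e5 : L.vp * (L.n * δ / L.n) * F1 ≤ L.vp * δ * (L.n * q1) := by
      have e6 : L.n * δ / (L.n : ℝ) = δ := by field_simp
      rw [e6]
      exact mul_le_mul_of_nonneg_left hq1 (by positivity)
    have e7 : (u' - u) * L.vp * F1 ≤ (u' - u) * L.vp * (L.n * q1) :=
      mul_le_mul_of_nonneg_left hq1 (mul_nonneg (by linarith) hv.le)
    have e8 : L.s ^ 2 * Fa ≤ L.s ^ 2 * (L.n * qa) :=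
      mul_le_mul_of_nonneg_left hqa (sq_nonneg _)
    linarith
  have hLast : L.x ^ 2 / 2 * (L.n * ((1 - u') * L.vp)) =
      A * (2 / L.b ^ 2 * L.vp * (1 - u')) := by
    rw [hA]
    field_simp
    ring
  have hNr : A * (Nr + gg h N') ≤ A * (2 * X * Real.log (gg h N / gg h N') + gg h N') :=
    mul_le_mul_of_nonneg_left (by linarith) hA0
  have e8 : A * (Sm1 + (2 / L.b ^ 2 * L.vp * (u * q0 + (δ + (u' - u)) * q1 + (1 - u')) +
        2 / L.b ^ 2 * (L.s ^ 2 * qa) + 2 * δ * C1 +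
        2 * X * Real.log (gg h N / gg h N') + gg h N')) =
      A * (2 / L.b ^ 2 * L.vp * (u * q0)) + A * Sm1 +
      A * (2 / L.b ^ 2 * L.vp * ((δ + (u' - u)) * q1) + 2 / L.b ^ 2 * (L.s ^ 2 * qa) +
        2 * δ * C1) +
      A * (2 * X * Real.log (gg h N / gg h N') + gg h N') +
      A * (2 / L.b ^ 2 * L.vp * (1 - u')) := by ring
  rw [e8]
  linarith

end path

end Vale.Agent.P146.H698
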