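import Vale.Agent.P146.H119.KPathSK
import Vale.Agent.P146.H9.MonoSK
import Vale.Agent.P146.H418.Mast

/-!
# P146: the entropy path on a geometric grid of levels

Bond levels `Fin (N' + 1)` with shares `gg h i - gg h (i + 1)` and `gg h N'`, field levels `Fin 3`
with shares `v u`, `v (u' - u)`, `v (1 - u')`. The path bounds of `H119.KPathSK` in terms of the
numbers of the two-level systems `cb t`, `cf v u` (levels `Bool`, revealed level `true`).
-/

open MeasureTheory ProbabilityTheory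

namespace Vale.Agent.P146.H698

open Vale.Agent.P157.Lv hiding Dep
open Vale.Agent.P146.H425 Vale.Agent.P146.H646
open Vale.Agent.P146.H196 Vale.Agent.P146.H246 Vale.Agent.P146.H347 Vale.Agent.P146.H325
  Vale.Agent.P146.H816 Vale.Agent.P146.H119 Vale.Agent.P146.H475 Vale.Agent.P146.H418

set_option linter.unusedSectionVars false

/-! ### the levels -/

section levels

/-- the bond levels -/
noncomputable def cG (h : ℝ) (N' : ℕ) (i : Fin (N' + 1)) : ℝ :=
  √(if (i : ℕ) < N' then gg h i - gg h (i + 1) else gg h N')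

/-- the first `l` levels -/
def BG (N' l : ℕ) : Finset (Fin (N' + 1)) := Finset.univ.filter fun i => (i : ℕ) < l

/-- the field levels -/
noncomputable def cH (v u u' : ℝ) : Fin 3 → ℝ := ![√(v * u), √(v * (u' - u)), √(v * (1 - u'))]

/-- the canonical bond levels: `true` is revealed -/
noncomputable def cb (t : ℝ) (i : Bool) : ℝ := if i then √t else √(1 - t)

/-- the canonical field levels -/
noncomputable def cf (v u : ℝ) (i : Bool) : ℝ := √v * cb u i

variable {h : ℝ} {N' l : ℕ}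

lemma cG_sq (hh : 0 ≤ h) (i : Fin (N' + 1)) :
    cG h N' i ^ 2 = if (i : ℕ) < N' then gg h i - gg h (i + 1) else gg h N' := by
  unfold cG
  refine Real.sq_sqrt ?_
  split_ifs
  · exact sub_nonneg.2 (gg_succ_le hh i)
  · exact (gg_pos hh N').le

lemma BG_zero (N' : ℕ) : BG N' 0 = ∅ := by
  ext i
  simp [BG]

lemma BG_top (N' : ℕ) : BG N' (N' + 1) = Finset.univ := by
  ext i
  have := i.2
  simp only [BG, Finset.mem_filter, Finset.mem_univ, true_and, iff_true]
  omega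

lemma BG_mono (N' : ℕ) : Monotone (BG N') := by
  intro a b hab i hi
  simp only [BG, Finset.mem_filter, Finset.mem_univ, true_and] at hi ⊢
  omega

lemma sum_BG (f : ℕ → ℝ) (hl : l ≤ N' + 1) :
    ∑ i ∈ BG N' l, f i = ∑ i ∈ Finset.range l, f i := by
  unfold BG
  rw [Finset.sum_filter, Fin.sum_univ_eq_sum_range (fun i => if i < l then f i else 0) (N' + 1),
    ← Finset.sum_filter]
  congr 1
  ext i
  simp
  omega

/-- the share of the first `l` levels -/
lemma shr_BG (hh : 0 ≤ h) (hl : l ≤ N') : shr (cG h N') (BG N' l) = 1 - gg h l := by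
  unfold shr
  have e1 : ∑ i ∈ BG N' l, cG h N' i ^ 2 =
      ∑ i ∈ BG N' l, (fun i : ℕ => gg h i - gg h (i + 1)) (i : ℕ) := by
    refine Finset.sum_congr rfl fun i hi => ?_
    have h1 : (i : ℕ) < l := by simpa [BG] using hi
    rw [cG_sq hh, if_pos (by omega)]
  rw [e1, sum_BG (fun i : ℕ => gg h i - gg h (i + 1)) (by omega),
    Finset.sum_range_sub' (fun i => gg h i), gg_zero]

lemma shr_top (hh : 0 ≤ h) (N' : ℕ) : shr (cG h N') Finset.univ = 1 := by
  have h1 := shr_BG (N' := N') (l := N') hh le_rfl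
  have h2 : (Finset.univ : Finset (Fin (N' + 1))) = insert (Fin.last N') (BG N' N') := by
    ext i
    simp only [BG, Finset.mem_univ, Finset.mem_insert, Finset.mem_filter, true_and, true_iff]
    rcases Fin.eq_castSucc_or_eq_last i with ⟨j, rfl⟩ | rfl
    · right
      simp
    · left
      rfl
  have h3 : Fin.last N' ∉ BG N' N' := by simp [BG]
  unfold shr at h1 ⊢
  rw [h2, Finset.sum_insert h3, h1, cG_sq hh, if_neg (by simp)]
  ring

variable {v u u' t : ℝ}

lemma cH_sq (hv : 0 ≤ v) (h0 : 0 ≤ u) (h1 : u ≤ u') (h2 : u' ≤ 1) :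
    cH v u u' 0 ^ 2 = v * u ∧ cH v u u' 1 ^ 2 = v * (u' - u) ∧
      cH v u u' 2 ^ 2 = v * (1 - u') := by
  refine ⟨?_, ?_, ?_⟩
  · show √(v * u) ^ 2 = _
    exact Real.sq_sqrt (mul_nonneg hv h0)
  · show √(v * (u' - u)) ^ 2 = _
    exact Real.sq_sqrt (mul_nonneg hv (sub_nonneg.2 h1))
  · show √(v * (1 - u')) ^ 2 = _
    exact Real.sq_sqrt (mul_nonneg hv (sub_nonneg.2 h2))

lemma shr_H0 (hv : 0 ≤ v) (h0 : 0 ≤ u) (h1 : u ≤ u') (h2 : u' ≤ 1) :
    shr (cH v u u') {0} = u * v := by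
  obtain ⟨a, b, c⟩ := cH_sq hv h0 h1 h2
  unfold shr
  rw [Finset.sum_singleton, a]
  ring

lemma shr_H1 (hv : 0 ≤ v) (h0 : 0 ≤ u) (h1 : u ≤ u') (h2 : u' ≤ 1) :
    shr (cH v u u') {0, 1} = u' * v := by
  obtain ⟨a, b, c⟩ := cH_sq hv h0 h1 h2
  unfold shr
  rw [Finset.sum_pair (by decide), a, b]
  ring

lemma shr_H (hv : 0 ≤ v) (h0 : 0 ≤ u) (h1 : u ≤ u') (h2 : u' ≤ 1) :
    shr (cH v u u') Finset.univ = v := by
  obtain ⟨a, b, c⟩ := cH_sq hv h0 h1 h2
  unfold shr
  rw [Fin.sum_univ_three, a, b, c]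
  ring

lemma cb_sq (h0 : 0 ≤ t) (h1 : t ≤ 1) : cb t true ^ 2 = t ∧ cb t false ^ 2 = 1 - t := by
  constructor
  · simp [cb, Real.sq_sqrt h0]
  · simp [cb, Real.sq_sqrt (sub_nonneg.2 h1)]

/-- the canonical system of shares `t, u` -/
lemma sh_can (v : ℝ) (h0 : 0 ≤ t) (h1 : t ≤ 1) (h2 : 0 ≤ u) (h3 : u ≤ 1) :
    Sh (cb t) (cf v u) {true} {true} 1 (√v) t u := by
  obtain ⟨a1, a2⟩ := cb_sq h0 h1
  obtain ⟨b1, b2⟩ := cb_sq h2 h3
  refine ⟨?_, ?_, ?_, ?_⟩
  · rw [Fintype.sum_bool, a1, a2]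
    ring
  · rw [Fintype.sum_bool]
    unfold cf
    rw [mul_pow, mul_pow, b1, b2]
    ring
  · rw [Finset.sum_singleton, a1]
    ring
  · rw [Finset.sum_singleton]
    unfold cf
    rw [mul_pow, b1]
    ring

lemma sh_G0 (hh : 0 ≤ h) (hl : l ≤ N') (hv : 0 ≤ v) (h0 : 0 ≤ u) (h1 : u ≤ u') (h2 : u' ≤ 1) :
    Sh (cG h N') (cH v u u') (BG N' l) {0} 1 (√v) (1 - gg h l) u := by
  refine ⟨?_, ?_, ?_, ?_⟩
  · have := shr_top (h := h) hh N'
    unfold shr at this
    rw [this]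
    ring
  · have := shr_H hv h0 h1 h2
    unfold shr at this
    rw [this, Real.sq_sqrt hv]
  · have := shr_BG (h := h) hh hl
    unfold shr at this
    rw [this]
    ring
  · have := shr_H0 hv h0 h1 h2
    unfold shr at this
    rw [this, Real.sq_sqrt hv]

lemma sh_G1 (hh : 0 ≤ h) (hl : l ≤ N') (hv : 0 ≤ v) (h0 : 0 ≤ u) (h1 : u ≤ u') (h2 : u' ≤ 1) :
    Sh (cG h N') (cH v u u') (BG N' l) {0, 1} 1 (√v) (1 - gg h l) u' := by
  refine ⟨?_, ?_, ?_, ?_⟩
  · have := shr_top (h := h) hh N'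
    unfold shr at this
    rw [this]
    ring
  · have := shr_H hv h0 h1 h2
    unfold shr at this
    rw [this, Real.sq_sqrt hv]
  · have := shr_BG (h := h) hh hl
    unfold shr at this
    rw [this]
    ring
  · have := shr_H1 hv h0 h1 h2
    unfold shr at this
    rw [this, Real.sq_sqrt hv]

end levels

lemma two_card_pair (n : ℕ) : 2 * (Fintype.card (Pair n) : ℝ) ≤ (n : ℝ) ^ 2 := by
  have h1 : Fintype.card (Pair n ⊕ Pair n) ≤ Fintype.card (Fin n × Fin n) := by
    refine Fintype.card_le_of_injective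
      (Sum.elim (fun p : Pair n => p.1) fun p : Pair n => (p.1.2, p.1.1)) ?_
    rintro (p | p) (q | q) hpq
    · simp only [Sum.elim_inl] at hpq
      rw [Subtype.ext hpq]
    · simp only [Sum.elim_inl, Sum.elim_inr] at hpq
      have e1 : p.1.1 = q.1.2 := by rw [hpq]
      have e2 : p.1.2 = q.1.1 := by rw [hpq]
      have e3 := p.2
      have e4 := q.2
      rw [e1, e2] at e3
      exact absurd e3 (not_lt.2 e4.le)
    · simp only [Sum.elim_inl, Sum.elim_inr] at hpq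
      have e1 : q.1.1 = p.1.2 := by rw [← hpq]
      have e2 : q.1.2 = p.1.1 := by rw [← hpq]
      have e3 := q.2
      have e4 := p.2
      rw [e1, e2] at e3
      exact absurd e3 (not_lt.2 e4.le)
    · simp only [Sum.elim_inr, Prod.mk.injEq] at hpq
      rw [Subtype.ext (Prod.ext hpq.2 hpq.1)]
  rw [Fintype.card_sum, Fintype.card_prod, Fintype.card_fin] at h1
  have h2 : ((Fintype.card (Pair n) + Fintype.card (Pair n) : ℕ) : ℝ) ≤ ((n * n : ℕ) : ℝ) := by
    exact_mod_cast h1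
  push_cast at h2
  nlinarith

/-! ### the path -/

section path

variable {n : ℕ} {b v s lam η c x h u u' : ℝ} {N N' : ℕ}

/-- the canonical pair number -/
noncomputable def ppc (n : ℕ) (b v s lam η c x : ℝ) (S : Finset (Fin n)) (t u : ℝ) : ℝ :=
  Q2 n b (cb t) (cf v u) s lam η c x S (Kset S {true} {true})

/-- the canonical field number -/
noncomputable def ffc (n : ℕ) (b v s lam η c x : ℝ) (S : Finset (Fin n)) (t u : ℝ) : ℝ :=
  Q1 n b (cb t) (cf v u) s lam η c x S (Kset S {true} {true})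

/-- the canonical entropy -/
noncomputable def KAc (n : ℕ) (b v s lam η c x : ℝ) : ℝ :=
  KL (Fm n b (fun _ : Unit => 1) (fun _ : Unit => √v) s lam η c) x

section congr

variable {LB LF LB' LF' : Type} [Fintype LB] [DecidableEq LB] [Fintype LF]
  [DecidableEq LF] [Fintype LB'] [DecidableEq LB'] [Fintype LF'] [DecidableEq LF']
variable {CB CF : ℝ} {cB : LB → ℝ} {cF : LF → ℝ} {cB' : LB' → ℝ} {cF' : LF' → ℝ}
variable {S S' : Finset (Fin n)} {BL : Finset LB} {FL : Finset LF} {BL' : Finset LB'}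
  {FL' : Finset LF'} {t t' : ℝ}

lemma Q2_eq_PPs (n : ℕ) (lam b : ℝ) (cB : LB → ℝ) (cF : LF → ℝ) (s η c x : ℝ)
    (S : Finset (Fin n)) (BL : Finset LB) (FL : Finset LF) :
    Q2 n b cB cF s lam η c x S (Kset S BL FL) = H9.PPs n lam b cB cF s η c x S BL FL := rfl

lemma Q1_eq_MMs (n : ℕ) (lam b : ℝ) (cB : LB → ℝ) (cF : LF → ℝ) (s η c x : ℝ)
    (S : Finset (Fin n)) (BL : Finset LB) (FL : Finset LF) :
    Q1 n b cB cF s lam η c x S (Kset S BL FL) = H9.MMs n lam b cB cF s η c x S BL FL := rfl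

lemma Q2_congr (hl : 0 < lam) (hη : 0 ≤ η) (hB : 0 < CB) (hF : 0 < CF)
    (hs : Sh cB cF BL FL CB CF t u) (hs' : Sh cB' cF' BL' FL' CB CF t u) :
    Q2 n b cB cF s lam η c x S (Kset S BL FL) =
      Q2 n b cB' cF' s lam η c x S (Kset S BL' FL') :=
  le_antisymm (H9.PPs_mono hl hη hB hF hs hs' (Finset.Subset.refl S) le_rfl le_rfl)
    (H9.PPs_mono hl hη hB hF hs' hs (Finset.Subset.refl S) le_rfl le_rfl)

lemma Q1_congr (hl : 0 < lam) (hη : 0 ≤ η) (hB : 0 < CB) (hF : 0 < CF)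
    (hs : Sh cB cF BL FL CB CF t u) (hs' : Sh cB' cF' BL' FL' CB CF t u) :
    Q1 n b cB cF s lam η c x S (Kset S BL FL) =
      Q1 n b cB' cF' s lam η c x S (Kset S BL' FL') :=
  le_antisymm (H9.MMs_mono hl hη hB hF hs hs' (Finset.Subset.refl S) le_rfl le_rfl)
    (H9.MMs_mono hl hη hB hF hs' hs (Finset.Subset.refl S) le_rfl le_rfl)

/-- the pair numbers of any level system are the canonical ones -/
lemma Q2_can (hl : 0 < lam) (hη : 0 ≤ η) (hv : 0 < v) (hs : Sh cB cF BL FL 1 (√v) t u)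
    (ht0 : 0 ≤ t) (ht1 : t ≤ 1) (hu0 : 0 ≤ u) (hu1 : u ≤ 1) :
    Q2 n b cB cF s lam η c x S (Kset S BL FL) = ppc n b v s lam η c x S t u :=
  Q2_congr hl hη one_pos (Real.sqrt_pos.2 hv) hs (sh_can v ht0 ht1 hu0 hu1)

lemma Q1_can (hl : 0 < lam) (hη : 0 ≤ η) (hv : 0 < v) (hs : Sh cB cF BL FL 1 (√v) t u)
    (ht0 : 0 ≤ t) (ht1 : t ≤ 1) (hu0 : 0 ≤ u) (hu1 : u ≤ 1) :
    Q1 n b cB cF s lam η c x S (Kset S BL FL) = ffc n b v s lam η c x S t u :=
  Q1_congr hl hη one_pos (Real.sqrt_pos.2 hv) hs (sh_can v ht0 ht1 hu0 hu1)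

lemma KL_can (hl : 0 < lam) (hη : 0 ≤ η) (hv : 0 < v) (hB : ∑ l, cB l ^ 2 = 1)
    (hF : ∑ l, cF l ^ 2 = v) : KL (Fm n b cB cF s lam η c) x = KAc n b v s lam η c x := by
  refine H9.KL_levels (n := n) (b := b) (s := s) (η := η) (CB := 1) (CF := √v)
    (gmA (n := n) b (fun _ : Unit => (1 : ℝ)) (fun _ : Unit => √v) s hl hη c)
    (gmA (n := n) b cB cF s hl hη c) one_pos (Real.sqrt_pos.2 hv) ?_ ?_ x
  · rw [hB]
    ring
  · rw [hF, Real.sq_sqrt hv.le]

/-- the bonds which touch the hidden sites -/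
lemma Q2_touch (hl : 0 < lam) (hη : 0 ≤ η) (hn : 0 < n) (S : Finset (Fin n)) (BL : Finset LB)
    (FL : Finset LF) :
    Q2 n b cB cF s lam η c x Finset.univ (Kset Finset.univ BL FL) -
        Q2 n b cB cF s lam η c x S (Kset Finset.univ BL FL) ≤
      2 * (n - S.card) / n * Q2 n b cB cF s lam η c x Finset.univ (Kset Finset.univ BL FL) := by
  have hL := lev_sk (n := n) b cB cF s c hl hη
  have hs : ∀ (π : Equiv.Perm (Fin n)) e, cP LB LF π e ∈ Kset Finset.univ BL FL ↔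
      e ∈ Kset Finset.univ BL FL :=
    fun π e => cP_memK π (fun _ => iff_of_true (Finset.mem_univ _) (Finset.mem_univ _)) e
  have h4 := sum_touch (f := fun p => en x (Fm n b cB cF s lam η c)
    (avm (muA (Xs n) lam η c) 1 (Sm b cB cF s η) fun w => SkS p w.2) (Kset Finset.univ BL FL))
    (fun π p => hL.en2 x π (hs π) p) (fun p => en_nonneg hL.lip x _ _) S
  rw [← q2_eq b cB cF s c hl hη, ← q2_eq b cB cF s c hl hη]
  unfold q2
  rw [ps_univ]
  have hn' : (0 : ℝ) < n := by exact_mod_cast hn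
  rw [div_mul_eq_mul_div, le_div_iff₀ hn', mul_comm]
  exact h4

/-- the fields of the hidden sites -/
lemma Q1_touch (hl : 0 < lam) (hη : 0 ≤ η) (hn : 0 < n) (S : Finset (Fin n)) (BL : Finset LB)
    (FL : Finset LF) :
    Q1 n b cB cF s lam η c x Finset.univ (Kset Finset.univ BL FL) -
        Q1 n b cB cF s lam η c x S (Kset Finset.univ BL FL) =
      (n - S.card) / n * Q1 n b cB cF s lam η c x Finset.univ (Kset Finset.univ BL FL) := by
  have hL := lev_sk (n := n) b cB cF s c hl hη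
  have hs : ∀ (π : Equiv.Perm (Fin n)) e, cP LB LF π e ∈ Kset Finset.univ BL FL ↔
      e ∈ Kset Finset.univ BL FL :=
    fun π e => cP_memK π (fun _ => iff_of_true (Finset.mem_univ _) (Finset.mem_univ _)) e
  have h3 := sum_const_sites (f := fun i => en x (Fm n b cB cF s lam η c)
    (avm (muA (Xs n) lam η c) 1 (Sm b cB cF s η) fun w => sp w.2 i) (Kset Finset.univ BL FL))
    (fun π i => hL.en1 x π (hs π) i) S
  rw [← q1_eq b cB cF s c hl hη, ← q1_eq b cB cF s c hl hη]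
  unfold q1
  have hn' : (0 : ℝ) < n := by exact_mod_cast hn
  rw [div_mul_eq_mul_div, eq_div_iff hn'.ne']
  linear_combination -h3

/-- the trivial bound of the pair number -/
lemma Q2_le (hl : 0 < lam) (hη : 0 ≤ η) (S : Finset (Fin n)) (K : Finset (Co n LB LF)) :
    Q2 n b cB cF s lam η c x S K ≤ (n : ℝ) ^ 2 / 2 := by
  have hL := lev_sk (n := n) b cB cF s c hl hη
  have hG := gmA (n := n) b cB cF s hl hη c
  rw [← q2_eq b cB cF s c hl hη]
  unfold q2
  have h1 : ∀ p ∈ ps S, en x (Fm n b cB cF s lam η c)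
      (avm (muA (Xs n) lam η c) 1 (Sm b cB cF s η) fun w => SkS p w.2) K ≤ 1 := by
    intro p _
    refine en_le hL.lip x (hL.b2 p) (fun z => ?_) K
    have h1 := hG.abs_av_le 1 (h := fun w : ℝ × Xs n => SkS p w.2)
      ((bm_sp p.1.1).mul (bm_sp p.1.2)).meas (C := 1) (fun w => by
        show |sp w.2 p.1.1 * sp w.2 p.1.2| ≤ 1
        rw [abs_mul, abs_sp, abs_sp, one_mul]) z
    rw [← sq_abs]
    exact pow_le_one₀ (abs_nonneg _) h1
  refine (Finset.sum_le_card_nsmul _ _ _ h1).trans ?_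
  rw [nsmul_eq_mul, mul_one]
  have h2 := two_card_pair n
  have h3 : ((ps S).card : ℝ) ≤ Fintype.card (Pair n) := by
    exact_mod_cast Finset.card_le_univ _
  linarith

lemma Q2_nonneg (hl : 0 < lam) (hη : 0 ≤ η) (S : Finset (Fin n)) (K : Finset (Co n LB LF)) :
    0 ≤ Q2 n b cB cF s lam η c x S K := by
  rw [← q2_eq b cB cF s c hl hη]
  exact (lev_sk (n := n) b cB cF s c hl hη).q2_nonneg x S K

lemma Q1_nonneg (hl : 0 < lam) (hη : 0 ≤ η) (S : Finset (Fin n)) (K : Finset (Co n LB LF)) :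
    0 ≤ Q1 n b cB cF s lam η c x S K := by
  rw [← q1_eq b cB cF s c hl hη]
  exact (lev_sk (n := n) b cB cF s c hl hη).q1_nonneg x S K

lemma Q1_mono (hl : 0 < lam) (hη : 0 ≤ η) {S S' : Finset (Fin n)} (hS : S ⊆ S')
    {K K' : Finset (Co n LB LF)} (hK : K ⊆ K') :
    Q1 n b cB cF s lam η c x S K ≤ Q1 n b cB cF s lam η c x S' K' := by
  rw [← q1_eq b cB cF s c hl hη, ← q1_eq b cB cF s c hl hη]
  exact (lev_sk (n := n) b cB cF s c hl hη).q1_mono x hS hK

end congr

lemma one_sub_gg (hh : 0 ≤ h) (l : ℕ) : 0 ≤ 1 - gg h l ∧ 1 - gg h l ≤ 1 :=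
  ⟨sub_nonneg.2 (gg_le_one hh l), by linarith [gg_pos hh l]⟩

/-- **The path on the grid, from below.** -/
theorem kgrid_low (hl : 0 < lam) (hη : 0 ≤ η) (hx : 0 < x) (hv : 0 < v) (hh : 0 ≤ h)
    (h0 : 0 ≤ u) (h1 : u ≤ 1) (hn : 0 < n) (N : ℕ) (S : Finset (Fin n)) :
    n * x ^ 2 * b ^ 2 / 4 * ∑ l ∈ Finset.range N, (gg h l - gg h (l + 1)) *
      (2 * ppc n b v s lam η c x S (1 - gg h l) u / n ^ 2) ≤ KAc n b v s lam η c x := by
  have hL := kpath_lower (n := n) (S := S) (BL := BG N) (FL := {0}) (N := N) b (cG h N)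
    (cH v u 1) s (x := x) c hl hη hx (BG_mono N)
  have hn' : (0 : ℝ) < n := by exact_mod_cast hn
  rw [KL_can hl hη hv (shr_top hh N) (shr_H hv.le h0 h1 le_rfl)] at hL
  refine le_trans (le_of_eq ?_) hL
  rw [Finset.mul_sum]
  refine Finset.sum_congr rfl fun l hl' => ?_
  have hlN : l < N := Finset.mem_range.1 hl'
  obtain ⟨g0, g1⟩ := one_sub_gg hh l
  rw [Q2_can hl hη hv (sh_G0 hh hlN.le hv.le h0 h1 le_rfl) g0 g1 h0 h1,
    shr_BG hh hlN.le, shr_BG hh (Nat.succ_le_of_lt hlN)]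
  field_simp
  ring

/-- **The path on the grid, from above.** -/
theorem kgrid_up (hl : 0 < lam) (hη : 0 ≤ η) (hx : 0 < x) (hv : 0 < v) (hh : 0 ≤ h)
    (h0 : 0 ≤ u) (h1 : u ≤ u') (h2 : u' ≤ 1) (hn : 0 < n) (hN : N ≤ N')
    (S : Finset (Fin n)) :
    KAc n b v s lam η c x ≤ x ^ 2 / 2 * (u * v) * ffc n b v s lam η c x S 0 u +
      n * x ^ 2 * b ^ 2 / 4 * ∑ l ∈ Finset.range N, (gg h l - gg h (l + 1)) *
        (2 * ppc n b v s lam η c x S (1 - gg h (l + 1)) u / n ^ 2) +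
      x ^ 2 / 2 * (b ^ 2 / n * (2 * (n - S.card) / n) *
          ppc n b v s lam η c x Finset.univ (1 - gg h N) u' +
        v * ((n - S.card) / n) * ffc n b v s lam η c x Finset.univ (1 - gg h N) u' +
        (u' - u) * v * ffc n b v s lam η c x Finset.univ (1 - gg h N) u') +
      n * x ^ 2 * b ^ 2 / 4 * (∑ l ∈ Finset.Ico N N', (gg h l - gg h (l + 1)) *
        (2 * ppc n b v s lam η c x Finset.univ (1 - gg h (l + 1)) u' / n ^ 2) + gg h N') +
      x ^ 2 / 2 * (n * ((1 - u') * v + s ^ 2 * (1 + η) ^ 2)) := by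
  have hn' : (0 : ℝ) < n := by exact_mod_cast hn
  have hu1 : u ≤ 1 := h1.trans h2
  have hu'0 : 0 ≤ u' := h0.trans h1
  have hU := kpath_upper (n := n) (S := S) (BL := BG N') (FL := {0}) (FL' := {0, 1}) (N := N)
    (N' := N' + 1) b (cG h N') (cH v u u') s (x := x) c hl hη hx (BG_mono N') (BG_zero N')
    (by omega) (BG_top N') (by simp)
  rw [KL_can hl hη hv (shr_top hh N') (shr_H hv.le h0 h1 h2)] at hU
  obtain ⟨gN0, gN1⟩ := one_sub_gg hh N
  have cN : 0 ≤ (n : ℝ) - S.card := by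
    have := Finset.card_le_univ S
    rw [Fintype.card_fin] at this
    exact sub_nonneg.2 (by exact_mod_cast this)
  -- the four numbers at the level `N`
  have a1 := Q2_touch (b := b) (cB := cG h N') (cF := cH v u u') (s := s) (c := c) (x := x)
    hl hη hn S (BG N' N) {0, 1}
  have a2 := Q1_touch (b := b) (cB := cG h N') (cF := cH v u u') (s := s) (c := c) (x := x)
    hl hη hn S (BG N' N) {0, 1}
  have a3 := Q1_mono (b := b) (cB := cG h N') (cF := cH v u u') (s := s) (c := c) (x := x)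
    hl hη (Finset.subset_univ S) (Finset.Subset.refl (Kset Finset.univ (BG N' N) {0, 1}))
  have c2 : Q2 n b (cG h N') (cH v u u') s lam η c x Finset.univ
      (Kset Finset.univ (BG N' N) {0, 1}) = ppc n b v s lam η c x Finset.univ (1 - gg h N) u' :=
    Q2_can hl hη hv (sh_G1 hh hN hv.le h0 h1 h2) gN0 gN1 hu'0 h2
  have c1 : Q1 n b (cG h N') (cH v u u') s lam η c x Finset.univ
      (Kset Finset.univ (BG N' N) {0, 1}) = ffc n b v s lam η c x Finset.univ (1 - gg h N) u' :=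
    Q1_can hl hη hv (sh_G1 hh hN hv.le h0 h1 h2) gN0 gN1 hu'0 h2
  rw [c2] at a1
  rw [c1] at a2 a3
  -- the field stage
  have c0 : Q1 n b (cG h N') (cH v u u') s lam η c x S (Kset S ∅ {0}) =
      ffc n b v s lam η c x S 0 u := by
    have := sh_G0 (h := h) (N' := N') (l := 0) hh (Nat.zero_le _) hv.le h0 h1 h2
    rw [BG_zero, gg_zero, sub_self] at this
    exact Q1_can hl hη hv this le_rfl zero_le_one h0 hu1
  rw [c0, shr_H0 hv.le h0 h1 h2] at hU
  -- the main sum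
  have d1 : ∑ l ∈ Finset.range N, x ^ 2 * b ^ 2 / (2 * n) *
      (shr (cG h N') (BG N' (l + 1)) - shr (cG h N') (BG N' l)) *
        Q2 n b (cG h N') (cH v u u') s lam η c x S (Kset S (BG N' (l + 1)) {0}) =
      n * x ^ 2 * b ^ 2 / 4 * ∑ l ∈ Finset.range N, (gg h l - gg h (l + 1)) *
        (2 * ppc n b v s lam η c x S (1 - gg h (l + 1)) u / n ^ 2) := by
    rw [Finset.mul_sum]
    refine Finset.sum_congr rfl fun l hl' => ?_
    have hlN : l < N := Finset.mem_range.1 hl'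
    obtain ⟨g0, g1⟩ := one_sub_gg hh (l + 1)
    rw [Q2_can hl hη hv (sh_G0 (l := l + 1) hh (by omega) hv.le h0 h1 h2) g0 g1 h0 hu1,
      shr_BG hh (show l ≤ N' by omega), shr_BG hh (show l + 1 ≤ N' by omega)]
    field_simp
    ring
  -- the near end
  have d2 : ∑ l ∈ Finset.Ico N (N' + 1), x ^ 2 * b ^ 2 / (2 * n) *
      (shr (cG h N') (BG N' (l + 1)) - shr (cG h N') (BG N' l)) *
        Q2 n b (cG h N') (cH v u u') s lam η c x Finset.univ
          (Kset Finset.univ (BG N' (l + 1)) {0, 1}) ≤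
      n * x ^ 2 * b ^ 2 / 4 * (∑ l ∈ Finset.Ico N N', (gg h l - gg h (l + 1)) *
        (2 * ppc n b v s lam η c x Finset.univ (1 - gg h (l + 1)) u' / n ^ 2) + gg h N') := by
    rw [Finset.sum_Ico_succ_top hN, mul_add, Finset.mul_sum]
    refine add_le_add (le_of_eq ?_) ?_
    · refine Finset.sum_congr rfl fun l hl' => ?_
      have hlN : l < N' := (Finset.mem_Ico.1 hl').2
      obtain ⟨g0, g1⟩ := one_sub_gg hh (l + 1)
      rw [Q2_can hl hη hv (sh_G1 (l := l + 1) hh (by omega) hv.le h0 h1 h2) g0 g1 hu'0 h2,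
        shr_BG hh (show l ≤ N' by omega), shr_BG hh (show l + 1 ≤ N' by omega)]
      field_simp
      ring
    · rw [BG_top, shr_top hh, shr_BG hh le_rfl]
      have e1 := Q2_le (n := n) (b := b) (cB := cG h N') (cF := cH v u u') (s := s) (c := c)
        (x := x) hl hη Finset.univ (Kset Finset.univ Finset.univ {0, 1})
      have e2 : 0 ≤ x ^ 2 * b ^ 2 / (2 * n) * (1 - (1 - gg h N')) := by
        have := gg_pos hh N'
        have : 0 ≤ 1 - (1 - gg h N') := by linarith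
        positivity
      refine (mul_le_mul_of_nonneg_left e1 e2).trans (le_of_eq ?_)
      field_simp
      ring
  -- the rows
  have b2 : b ^ 2 / n * shr (cG h N') (BG N' N) *
      (ppc n b v s lam η c x Finset.univ (1 - gg h N) u' -
        Q2 n b (cG h N') (cH v u u') s lam η c x S (Kset Finset.univ (BG N' N) {0, 1})) ≤
      b ^ 2 / n * (2 * (n - S.card) / n) *
        ppc n b v s lam η c x Finset.univ (1 - gg h N) u' := by
    rw [shr_BG hh hN]
    have p0 : 0 ≤ ppc n b v s lam η c x Finset.univ (1 - gg h N) u' := Q2_nonneg hl hη _ _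
    have e1 : 0 ≤ b ^ 2 / n := by positivity
    calc b ^ 2 / n * (1 - gg h N) * _ ≤ b ^ 2 / n * (1 - gg h N) *
          (2 * (n - S.card) / n * ppc n b v s lam η c x Finset.univ (1 - gg h N) u') :=
          mul_le_mul_of_nonneg_left a1 (mul_nonneg e1 gN0)
      _ ≤ b ^ 2 / n * 1 *
          (2 * (n - S.card) / n * ppc n b v s lam η c x Finset.univ (1 - gg h N) u') :=
          mul_le_mul_of_nonneg_right (mul_le_mul_of_nonneg_left gN1 e1) (by positivity)
      _ = _ := by ring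
  have q0 : 0 ≤ ffc n b v s lam η c x Finset.univ (1 - gg h N) u' := Q1_nonneg hl hη _ _
  have b1 : shr (cH v u u') {0, 1} * (ffc n b v s lam η c x Finset.univ (1 - gg h N) u' -
        Q1 n b (cG h N') (cH v u u') s lam η c x S (Kset Finset.univ (BG N' N) {0, 1})) ≤
      v * ((n - S.card) / n) * ffc n b v s lam η c x Finset.univ (1 - gg h N) u' := by
    rw [a2, shr_H1 hv.le h0 h1 h2]
    calc u' * v * ((n - S.card) / n * ffc n b v s lam η c x Finset.univ (1 - gg h N) u') ≤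
          1 * v * ((n - S.card) / n * ffc n b v s lam η c x Finset.univ (1 - gg h N) u') :=
          mul_le_mul_of_nonneg_right (mul_le_mul_of_nonneg_right h2 hv.le)
            (mul_nonneg (div_nonneg cN hn'.le) q0)
      _ = _ := by ring
  have b0 : (shr (cH v u u') {0, 1} - u * v) *
      Q1 n b (cG h N') (cH v u u') s lam η c x S (Kset Finset.univ (BG N' N) {0, 1}) ≤
      (u' - u) * v * ffc n b v s lam η c x Finset.univ (1 - gg h N) u' := by
    rw [shr_H1 hv.le h0 h1 h2]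
    have e1 : 0 ≤ (u' - u) * v := mul_nonneg (sub_nonneg.2 h1) hv.le
    calc (u' * v - u * v) * _ = (u' - u) * v * _ := by ring
      _ ≤ _ := mul_le_mul_of_nonneg_left a3 e1
  have b3 : x ^ 2 / 2 * (n * (shr (cH v u u') Finset.univ - shr (cH v u u') {0, 1} +
      s ^ 2 * (1 + η) ^ 2)) = x ^ 2 / 2 * (n * ((1 - u') * v + s ^ 2 * (1 + η) ^ 2)) := by
    rw [shr_H hv.le h0 h1 h2, shr_H1 hv.le h0 h1 h2]
    ring
  rw [c2, c1, d1, b3] at hU
  have x2 : 0 ≤ x ^ 2 / 2 := by positivity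
  have b4 := mul_le_mul_of_nonneg_left (add_le_add (add_le_add b2 b1) b0) x2
  linarith

end path

end Vale.Agent.P146.H698
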