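import Vale.Agent.P146.H9.MonoU
import Vale.Agent.P146.H119.KPathSK

/-!
# P146: the single amplitude system (`muA`, `Sm`, coordinates `gd`) as a system of the ensemble U

* `tr_avm`, `tr_Zxm`, `tr_lzm`, `tr_eg`, `tr_cg`: change of the base space;
* `muU_nuA`, `mp_unit`: the base measures;
* `Kgs S BL FL g`: bonds and plain fields as in `Kset S BL FL`, the modulated field of the sites of
  `S` revealed (`g = true`) or not (`g = false`);
* `bridge`: the law of the conditional means given `Kgs S BL FL g` is the one of the ensemble U with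
  two classes (`false` plain, `true` modulated) at the shares `t`, `u`, `gr g`;
* `bridge_KL`: the relative entropies agree.
-/

open MeasureTheory ProbabilityTheory

namespace Vale.Agent.P146.H698.Br

open Vale.Agent.P157.Lv hiding Dep
open Vale.Agent.P146.H425 Vale.Agent.P146.H332 Vale.Agent.P146.H646
open Vale.Agent.P146.H196 Vale.Agent.P146.H246 Vale.Agent.P146.H347 Vale.Agent.P146.H325
  Vale.Agent.P146.H816 Vale.Agent.P146.H475 Vale.Agent.P146.H9 Vale.Agent.P146.H281.U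
open Vale.Agent.P146.H9.U hiding lvlU

set_option linter.unusedSectionVars false

/-! ### change of the base space -/

section tr

variable {ι Ω Ω' : Type} [Fintype ι] [DecidableEq ι] [MeasurableSpace Ω] [MeasurableSpace Ω']
  {μ : Measure Ω} {μ' : Measure Ω'} {φ : Ω → Ω'}

lemma tr_Zm (h : MeasurePreserving φ μ μ') (he : MeasurableEmbedding φ) (k : ℝ)
    (S' : ι → Ω' → ℝ) : Zm μ' k S' = Zm μ k (fun e w => S' e (φ w)) := by
  funext u
  unfold Zm
  rw [← h.integral_comp he]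
  rfl

lemma tr_lzm (h : MeasurePreserving φ μ μ') (he : MeasurableEmbedding φ) (k : ℝ)
    (S' : ι → Ω' → ℝ) : lzm μ' k S' = lzm μ k (fun e w => S' e (φ w)) := by
  funext u
  unfold lzm
  rw [tr_Zm h he]

lemma tr_Zxm (h : MeasurePreserving φ μ μ') (he : MeasurableEmbedding φ) (k x : ℝ)
    (S' : ι → Ω' → ℝ) : Zxm μ' k S' x = Zxm μ k (fun e w => S' e (φ w)) x := by
  funext u
  unfold Zxm
  rw [tr_lzm h he]

lemma tr_avm (h : MeasurePreserving φ μ μ') (he : MeasurableEmbedding φ) (k : ℝ)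
    (S' : ι → Ω' → ℝ) (f : Ω' → ℝ) :
    avm μ' k S' f = avm μ k (fun e w => S' e (φ w)) (fun w => f (φ w)) := by
  funext u
  unfold avm
  rw [tr_Zm h he, ← h.integral_comp he]
  rfl

lemma tr_eg (h : MeasurePreserving φ μ μ') (he : MeasurableEmbedding φ) (x : ℝ)
    (S' : ι → Ω' → ℝ) (Ψ : (ι → ℝ) → ℝ) :
    eg μ' S' x Ψ = eg μ (fun e w => S' e (φ w)) x Ψ := by
  unfold eg
  rw [tr_Zxm h he]

lemma tr_cg (h : MeasurePreserving φ μ μ') (he : MeasurableEmbedding φ) (x : ℝ)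
    (S' : ι → Ω' → ℝ) (K : Finset ι) (f : Ω' → ℝ) (z : ι → ℝ) :
    cg μ' S' x K f z = cg μ (fun e w => S' e (φ w)) x K (fun w => f (φ w)) z := by
  unfold cg
  rw [tr_Zxm h he, tr_avm h he]

end tr

/-! ### the base measures -/

section meas

variable {n : ℕ} {lam η c : ℝ}

theorem muU_nuA (n : ℕ) (lam η c : ℝ) : muU (nuA lam η c) n = muA (Xs n) lam η c := by
  have := dmx n
  unfold muU nuA muA
  exact prod_withDensity_left (measurable_cw η c).ennreal_ofReal

/-- the base map from the one-variable product space -/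
def φu (n : ℕ) (w : (Unit → ℝ) × Xs n) : ℝ × Xs n := (w.1 (), w.2)

theorem emb_unit (n : ℕ) : MeasurableEmbedding (φu n) :=
  ((MeasurableEquiv.funUnique Unit ℝ).prodCongr (MeasurableEquiv.refl (Xs n))).measurableEmbedding

theorem mp_unit (hl : 0 < lam) (hη : 0 ≤ η) (c : ℝ) :
    MeasurePreserving (φu n) (muU (nuG (fun _ : Unit => lam) η fun _ => c) n)
      (muA (Xs n) lam η c) := by
  have := dmx n
  have h1 : IsFiniteMeasure (nuA lam η c) := finite_nuA hl hη c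
  have h2 := measurePreserving_funUnique (nuA lam η c) Unit
  rw [← muU_nuA]
  exact h2.prod (MeasurePreserving.id (Measure.count : Measure (Xs n)))

end meas

/-! ### the two classes -/

section classes

variable {n : ℕ} {LB LF LB' LF' : Type} [Fintype LB] [DecidableEq LB] [Fintype LF]
  [DecidableEq LF] [Fintype LB'] [DecidableEq LB'] [Fintype LF'] [DecidableEq LF']
variable {b vp s η lam c t u x : ℝ} {cB : LB → ℝ} {cF : LF → ℝ} {cB' : LB' → ℝ} {cF' : LF' → ℝ}
variable {S G : Finset (Fin n)} {BL : Finset LB} {FL : Finset LF} {BL' : Finset LB'}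
  {FL' : Finset LF'} {κ : LF' → Bool} {A : Type} [Fintype A] [DecidableEq A]

/-- the amplitudes of the two classes -/
noncomputable def αb (η : ℝ) (k : Bool) (t : ℝ) : ℝ := if k then al η t else 1

/-- the variances of the two classes -/
def VFb (vp s : ℝ) (k : Bool) : ℝ := if k then s ^ 2 else vp

/-- the shares of the two classes -/
noncomputable def ub (u g : ℝ) (k : Bool) : ℝ := if k then g else u

lemma amU_b (hη : 0 ≤ η) : AmU (αb η) η where
  nn := hη
  meas k := by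
    cases k
    · exact measurable_const
    · exact measurable_al η
  bd k t := by
    cases k
    · show |(1 : ℝ) - 1| ≤ η
      simpa using hη
    · exact abs_al_sub hη t

/-- the projection of the single amplitude coordinates -/
def pC (n : ℕ) (LB LF : Type) : Co n LB LF → Co n Unit Bool :=
  Sum.elim (fun e => Sum.inl (Sum.map (fun e : Pair n × LB => (e.1, ()))
    (fun e : Fin n × LF => (e.1, false)) e)) fun j => Sum.inl (Sum.inr (j, true))

/-- the coefficients -/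
noncomputable def cC (n : ℕ) (cB : LB → ℝ) (cF : LF → ℝ) (vp : ℝ) : Co n LB LF → ℝ :=
  Sum.elim (Sum.elim (fun e => cB e.2) fun e => cF e.2 / √vp) fun _ => 1

theorem lvlC (hv : 0 < vp) (hs : 0 < s) (b η : ℝ) : Lvl (pC n LB LF) (cC n cB cF vp)
    (SbU n b (VFb vp s) (αb η)) (Sm b cB cF s η) := by
  intro j w
  rcases j with (⟨q, l⟩ | ⟨i, l⟩) | j
  · show b / √n * cB l * SkS q w.2 = cB l * (b / √n * 1 * SkS q w.2)
    ring
  · show cF l * sp w.2 i = cF l / √vp * (√vp * 1 * sp w.2 i)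
    have : √vp ≠ 0 := (Real.sqrt_pos.2 hv).ne'
    field_simp
  · show al η w.1 * s * sp w.2 j = 1 * (√(s ^ 2) * al η w.1 * sp w.2 j)
    rw [Real.sqrt_sq hs.le]
    ring

lemma fibC_bd (q : Pair n) (g : Co n LB LF → ℝ) :
    ∑ j with pC n LB LF j = bd Bool q (), g j = ∑ l, g (bd LF q l) := by
  have e : (Finset.univ.filter fun j => pC n LB LF j = bd Bool q ()) =
      Finset.univ.image fun l => bd LF q l := by
    ext j
    rcases j with (⟨q', l⟩ | ⟨i, l⟩) | j <;> simp [pC, eq_comm]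
  rw [e, Finset.sum_image]
  intro l _ l' _ h
  simpa using h

lemma fibC_fd (i : Fin n) (g : Co n LB LF → ℝ) :
    ∑ j with pC n LB LF j = fd Unit i false, g j = ∑ l, g (fd LB i l) := by
  have e : (Finset.univ.filter fun j => pC n LB LF j = fd Unit i false) =
      Finset.univ.image fun l => fd LB i l := by
    ext j
    rcases j with (⟨q', l⟩ | ⟨i, l⟩) | j <;> simp [pC, eq_comm]
  rw [e, Finset.sum_image]
  intro l _ l' _ h
  simpa using h

lemma fibC_gd (i : Fin n) (g : Co n LB LF → ℝ) :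
    ∑ j with pC n LB LF j = fd Unit i true, g j = g (gd LB LF i) := by
  have e : (Finset.univ.filter fun j => pC n LB LF j = fd Unit i true) = {gd LB LF i} := by
    ext j
    rw [Finset.mem_filter, Finset.mem_singleton]
    rcases j with (⟨q', l⟩ | ⟨i', l⟩) | j
    · exact ⟨fun h => absurd h.2 (by simp [pC]), fun h => absurd h (by simp)⟩
    · exact ⟨fun h => absurd h.2 (by simp [pC]), fun h => absurd h (by simp)⟩
    · refine ⟨fun h => ?_, fun h => ⟨Finset.mem_univ _, ?_⟩⟩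
      · have h3 : (Sum.inl (Sum.inr (j, true)) : Co n Unit Bool) =
          Sum.inl (Sum.inr (i, true)) := h.2
        have h4 : j = i := congrArg Prod.fst (Sum.inr.inj (Sum.inl.inj h3))
        rw [h4]
      · have h4 : j = i := Sum.inr.inj h
        rw [h4]
        rfl
  rw [e, Finset.sum_singleton]

lemma fibC_dm (i : Fin n) (g : Co n LB LF → ℝ) :
    ∑ j with pC n LB LF j = gd Unit Bool i, g j = 0 := by
  have e : (Finset.univ.filter fun j => pC n LB LF j = gd Unit Bool i) = ∅ := by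
    refine Finset.filter_eq_empty_iff.2 fun j _ => ?_
    rcases j with (⟨q', l⟩ | ⟨i', l⟩) | j <;> simp [pC]
  rw [e, Finset.sum_empty]

/-- total shares: the dummy coordinates carry nothing -/
def dm (n : ℕ) (A : Type) : Co n Unit A → ℝ := Sum.elim (fun _ => 1) fun _ => 0

/-- the revealed set: the modulated field of the sites of `S` is revealed if `g = true` -/
def Kgs (S : Finset (Fin n)) (BL : Finset LB) (FL : Finset LF) (g : Bool) :
    Finset (Co n LB LF) :=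
  Kg (fun l => if l ∈ BL then S else ∅) (fun l => if l ∈ FL then S else ∅) (if g then S else ∅)

lemma Kgs_false (S : Finset (Fin n)) (BL : Finset LB) (FL : Finset LF) :
    Kgs S BL FL false = Kset S BL FL := rfl

lemma bd_memKg (p : Pair n) (l : LB) (g : Bool) :
    bd LF p l ∈ Kgs S BL FL g ↔ (p.1.1 ∈ S ∧ p.1.2 ∈ S) ∧ l ∈ BL := by
  unfold Kgs
  rw [bd_mem]
  by_cases h : l ∈ BL <;> simp [h]

lemma fd_memKg (i : Fin n) (l : LF) (g : Bool) : fd LB i l ∈ Kgs S BL FL g ↔ i ∈ S ∧ l ∈ FL := by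
  unfold Kgs
  rw [fd_mem]
  by_cases h : l ∈ FL <;> simp [h]

lemma gd_memKg (i : Fin n) (g : Bool) : gd LB LF i ∈ Kgs S BL FL g ↔ i ∈ S ∧ g = true := by
  unfold Kgs
  rw [gd_mem]
  cases g <;> simp

/-- the share of the modulated field -/
noncomputable def gr (g : Bool) : ℝ := if g then 1 else 0

theorem vfC_tot (hv : 0 < vp) (hB : ∑ l, cB l ^ 2 = 1) (hF : ∑ l, cF l ^ 2 = vp)
    (e : Co n Unit Bool) : vf (pC n LB LF) (cC n cB cF vp) e = dm n Bool e := by
  unfold vf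
  rcases e with (⟨q, l⟩ | ⟨i, k⟩) | j
  · rw [fibC_bd]
    exact hB
  · cases k
    · rw [fibC_fd]
      show ∑ l, (cF l / √vp) ^ 2 = 1
      simp only [div_pow, Real.sq_sqrt hv.le]
      rw [← Finset.sum_div, hF, div_self hv.ne']
    · rw [fibC_gd]
      show (1 : ℝ) ^ 2 = 1
      norm_num
  · exact fibC_dm j _

theorem vfC_re (hv : 0 < vp) (hs : 0 < s) (hF : ∑ l ∈ FL, cF l ^ 2 = u * vp)
    (hB : ∑ l ∈ BL, cB l ^ 2 = t) (g : Bool) (e : Co n Unit Bool) :
    vf (pC n LB LF) (re (Kgs S BL FL g) (cC n cB cF vp)) e =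
      q0U (VFb vp s) S t (ub u (gr g)) e := by
  unfold vf
  rcases e with (⟨q, l⟩ | ⟨i, k⟩) | j
  · rw [fibC_bd]
    show ∑ l, (if bd LF q l ∈ Kgs S BL FL g then cB l else 0) ^ 2 =
      if q.1.1 ∈ S ∧ q.1.2 ∈ S then t else 0
    simp only [bd_memKg]
    by_cases hq : q.1.1 ∈ S ∧ q.1.2 ∈ S
    · simp only [hq, true_and, and_self, if_true]
      have h1 : ∀ l, (if l ∈ BL then cB l else 0) ^ 2 = if l ∈ BL then cB l ^ 2 else 0 := by
        intro l
        split_ifs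
        · rfl
        · norm_num
      simp only [h1]
      rw [Finset.sum_ite_mem, Finset.univ_inter, hB]
    · simp only [hq, false_and, if_false]
      simp
  · cases k
    · rw [fibC_fd]
      show ∑ l, (if fd LB i l ∈ Kgs S BL FL g then cF l / √vp else 0) ^ 2 =
        if i ∈ S then (if vp = 0 then 0 else u) else 0
      rw [if_neg hv.ne']
      simp only [fd_memKg]
      by_cases hq : i ∈ S
      · simp only [hq, true_and, if_true]
        have h1 : ∀ l, (if l ∈ FL then cF l / √vp else 0) ^ 2 =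
            if l ∈ FL then cF l ^ 2 / vp else 0 := by
          intro l
          split_ifs
          · rw [div_pow, Real.sq_sqrt hv.le]
          · norm_num
        simp only [h1]
        rw [Finset.sum_ite_mem, Finset.univ_inter, ← Finset.sum_div, hF,
          mul_div_cancel_right₀ _ hv.ne']
      · simp only [hq, false_and, if_false]
        simp
    · rw [fibC_gd]
      show (if gd LB LF i ∈ Kgs S BL FL g then (1 : ℝ) else 0) ^ 2 =
        if i ∈ S then (if s ^ 2 = 0 then 0 else gr g) else 0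
      rw [if_neg (show s ^ 2 ≠ 0 by positivity)]
      simp only [gd_memKg]
      unfold gr
      by_cases hq : i ∈ S <;> cases g <;> simp [hq]
  · exact fibC_dm j _

theorem lsC (hv : 0 < vp) (hs : 0 < s) (hB1 : ∑ l, cB l ^ 2 = 1) (hF1 : ∑ l, cF l ^ 2 = vp)
    (hF : ∑ l ∈ FL, cF l ^ 2 = u * vp) (hB : ∑ l ∈ BL, cB l ^ 2 = t) (g : Bool)
    (S : Finset (Fin n)) : Ls (pC n LB LF) (cC n cB cF vp) (Kgs S BL FL g)
      (q0U (VFb vp s) S t (ub u (gr g)))
      (fun e => dm n Bool e - q0U (VFb vp s) S t (ub u (gr g)) e) := by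
  refine ⟨vfC_re hv hs hF hB g, fun e => ?_⟩
  have h1 := vf_split (pC n LB LF) (cC n cB cF vp) (Kgs S BL FL g) e
  rw [vfC_tot hv hB1 hF1, vfC_re hv hs hF hB g] at h1
  linarith

/-! ### the ensemble U with no weight on the dummy coordinates -/

variable {κA : LF' → A} {VF : A → ℝ} {uA : A → ℝ} {Th : Type} [MeasurableSpace Th]

/-- the coefficients, zero on the dummy coordinates -/
noncomputable def cz (n : ℕ) (κA : LF' → A) (cB' : LB' → ℝ) (cF' : LF' → ℝ) (VF : A → ℝ) :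
    Co n LB' LF' → ℝ :=
  Sum.elim (Sum.elim (fun e => cB' e.2) fun e => cF' e.2 / √(VF (κA e.2))) fun _ => 0

theorem lvlz (hF : ∀ k, ∑ l with κA l = k, cF' l ^ 2 = VF k) (b : ℝ) (α : A → Th → ℝ) :
    Lvl (p0U n LB' κA) (cz n κA cB' cF' VF) (SbU n b VF α) (SU b cB' cF' fun l => α (κA l)) := by
  intro j w
  have h := H9.U.lvlU (n := n) (LB := LB') (cB := cB') hF b α j w
  rcases j with (⟨q, l⟩ | ⟨i, l⟩) | j
  · exact h
  · exact h
  · show (0 : ℝ) = 0 * 0
    ring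

theorem vfz_tot (hV : ∀ k, VF k ≠ 0) (hB : ∑ l, cB' l ^ 2 = 1)
    (hF : ∀ k, ∑ l with κA l = k, cF' l ^ 2 = VF k) (e : Co n Unit A) :
    vf (p0U n LB' κA) (cz n κA cB' cF' VF) e = dm n A e := by
  have h := vf_totU (n := n) (LB := LB') (cB := cB') hB hF e
  rcases e with (⟨q, l⟩ | ⟨i, k⟩) | j
  · unfold vf at h ⊢
    rw [fib_bdU] at h ⊢
    exact h
  · unfold vf at h ⊢
    rw [fib_fdU] at h ⊢
    refine h.trans ?_
    show (if VF k = 0 then (0 : ℝ) else 1) = 1
    rw [if_neg (hV k)]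
  · unfold vf
    rw [fib_gdU]
    show (0 : ℝ) ^ 2 = 0
    norm_num

theorem vfz_re (hs : ShU κA cB' cF' BL' FL' VF t uA) (S : Finset (Fin n)) (e : Co n Unit A) :
    vf (p0U n LB' κA) (re (Kset S BL' FL') (cz n κA cB' cF' VF)) e = q0U VF S t uA e := by
  have h := vf_reU hs S e
  rcases e with (⟨q, l⟩ | ⟨i, k⟩) | j
  · unfold vf at h ⊢
    rw [fib_bdU] at h ⊢
    exact h
  · unfold vf at h ⊢
    rw [fib_fdU] at h ⊢
    exact h
  · unfold vf
    rw [fib_gdU]
    show (if gd LB' LF' j ∈ Kset S BL' FL' then (0 : ℝ) else 0) ^ 2 = 0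
    simp

theorem lsz (hV : ∀ k, VF k ≠ 0) (hs : ShU κA cB' cF' BL' FL' VF t uA) (S : Finset (Fin n)) :
    Ls (p0U n LB' κA) (cz n κA cB' cF' VF) (Kset S BL' FL') (q0U VF S t uA)
      (fun e => dm n A e - q0U VF S t uA e) := by
  refine ⟨vfz_re hs S, fun e => ?_⟩
  have h1 := vf_split (p0U n LB' κA) (cz n κA cB' cF' VF) (Kset S BL' FL') e
  rw [vfz_tot hV hs.totB hs.totF, vfz_re hs S] at h1
  linarith

lemma VFb_ne (hv : 0 < vp) (hs : 0 < s) (k : Bool) : VFb vp s k ≠ 0 := by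
  cases k
  · exact hv.ne'
  · exact (pow_pos hs 2).ne'

/-! ### the bridge -/

lemma gm_U (hl : 0 < lam) (hη : 0 ≤ η) (c : ℝ) : ∃ M1, GM (muA (Xs n) lam η c)
    (SU b cB' cF' fun l => αb η (κ l) : Co n LB' LF' → ℝ × Xs n → ℝ) M1 := by
  rw [← muU_nuA]
  exact ⟨_, gmU (n := n) b cB' cF' η (finite_nuA hl hη c) (nuA_ne hl hη c)
    ⟨hη, fun l => (amU_b hη).meas (κ l), fun l => (amU_b hη).bd (κ l)⟩⟩

lemma gm_base (hl : 0 < lam) (hη : 0 ≤ η) (c : ℝ) :
    ∃ M0, GM (muA (Xs n) lam η c) (SbU n b (VFb vp s) (αb η)) M0 := by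
  rw [← muU_nuA]
  exact ⟨_, gmU (n := n) b (fun _ : Unit => (1 : ℝ)) (fun k => √(VFb vp s k)) η
    (finite_nuA hl hη c) (nuA_ne hl hη c) (amU_b hη)⟩

section main

variable {J : Type} [Fintype J] {f : J → ℝ × Xs n → ℝ}

/-- **THE BRIDGE**, base space `ℝ × Xs n`. -/
theorem bridge (hl : 0 < lam) (hη : 0 ≤ η) (hv : 0 < vp) (hs : 0 < s)
    (hB1 : ∑ l, cB l ^ 2 = 1) (hF1 : ∑ l, cF l ^ 2 = vp) (hF : ∑ l ∈ FL, cF l ^ 2 = u * vp)
    (hB : ∑ l ∈ BL, cB l ^ 2 = t) (g : Bool)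
    (hs' : ShU κ cB' cF' BL' FL' (VFb vp s) t (ub u (gr g))) (S : Finset (Fin n)) (x : ℝ)
    (hf : ∀ a, Bm (f a)) {Φ : (J → ℝ) → ℝ} (hΦ : Measurable Φ)
    (hΦC : ∀ C, ∃ C', ∀ v : J → ℝ, (∀ a, |v a| ≤ C) → |Φ v| ≤ C') :
    eg (muA (Xs n) lam η c) (Sm b cB cF s η) x
        (fun z => Φ fun a => cg (muA (Xs n) lam η c) (Sm b cB cF s η) x (Kgs S BL FL g) (f a) z) =
      eg (muA (Xs n) lam η c) (SU b cB' cF' fun l => αb η (κ l)) x
        (fun z => Φ fun a => cg (muA (Xs n) lam η c) (SU b cB' cF' fun l => αb η (κ l)) x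
          (Kset S BL' FL') (f a) z) := by
  obtain ⟨M0, hG⟩ := gm_base (n := n) (b := b) (vp := vp) (s := s) hl hη c
  exact eg_congr hG (lvlC hv hs b η) (lvlz hs'.totF b (αb η)) (lsC hv hs hB1 hF1 hF hB g S)
    (lsz (VFb_ne hv hs) hs' S) x hf hΦ hΦC

/-- **THE BRIDGE**, base space `(Unit → ℝ) × Xs n`. -/
theorem bridge_unit (hl : 0 < lam) (hη : 0 ≤ η) (hv : 0 < vp) (hs : 0 < s)
    (hB1 : ∑ l, cB l ^ 2 = 1) (hF1 : ∑ l, cF l ^ 2 = vp) (hF : ∑ l ∈ FL, cF l ^ 2 = u * vp)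
    (hB : ∑ l ∈ BL, cB l ^ 2 = t) (g : Bool)
    (hs' : ShU κ cB' cF' BL' FL' (VFb vp s) t (ub u (gr g))) (S : Finset (Fin n)) (x : ℝ)
    (hf : ∀ a, Bm (f a)) {Φ : (J → ℝ) → ℝ} (hΦ : Measurable Φ)
    (hΦC : ∀ C, ∃ C', ∀ v : J → ℝ, (∀ a, |v a| ≤ C) → |Φ v| ≤ C') :
    eg (muA (Xs n) lam η c) (Sm b cB cF s η) x
        (fun z => Φ fun a => cg (muA (Xs n) lam η c) (Sm b cB cF s η) x (Kgs S BL FL g) (f a) z) =
      eg (muU (nuG (fun _ : Unit => lam) η fun _ => c) n)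
        (SU b cB' cF' fun l θ => αb η (κ l) (θ ())) x
        (fun z => Φ fun a => cg (muU (nuG (fun _ : Unit => lam) η fun _ => c) n)
          (SU b cB' cF' fun l θ => αb η (κ l) (θ ())) x (Kset S BL' FL')
          (fun w => f a (φu n w)) z) := by
  rw [bridge hl hη hv hs hB1 hF1 hF hB g hs' S x hf hΦ hΦC, tr_eg (mp_unit hl hη c) (emb_unit n)]
  simp only [tr_cg (mp_unit hl hη c) (emb_unit n)]
  have e1 : (fun (e : Co n LB' LF') (w : (Unit → ℝ) × Xs n) =>
      SU b cB' cF' (fun l => αb η (κ l)) e (φu n w)) =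
      SU b cB' cF' fun l θ => αb η (κ l) (θ ()) := by
    funext e w
    rcases e with (⟨q, l⟩ | ⟨i, l⟩) | j <;> rfl
  rw [e1]

/-- **THE BRIDGE**, relative entropy. -/
theorem bridge_KL (hl : 0 < lam) (hη : 0 ≤ η) (hv : 0 < vp) (hs : 0 < s)
    (hB1 : ∑ l, cB l ^ 2 = 1) (hF1 : ∑ l, cF l ^ 2 = vp)
    (hB1' : ∑ l, cB' l ^ 2 = 1) (hF1' : ∀ k, ∑ l with κ l = k, cF' l ^ 2 = VFb vp s k) (y : ℝ) :
    KL (lzm (muA (Xs n) lam η c) 1 (Sm b cB cF s η)) y =
      KL (lzm (muA (Xs n) lam η c) 1 (SU b cB' cF' fun l => αb η (κ l))) y := by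
  obtain ⟨M0, hG⟩ := gm_base (n := n) (b := b) (vp := vp) (s := s) hl hη c
  have hG1 := gmA (n := n) b cB cF s hl hη c
  obtain ⟨M1, hG2⟩ := gm_U (n := n) (b := b) (cB' := cB') (cF' := cF') (κ := κ) hl hη c
  refine H529.KL_congr (hG1.c11 1).lip (hG1.c11 1).B0 (hG2.c11 1).lip (hG2.c11 1).B0
    (fun z => ?_) y
  unfold H529.lm
  congr 1
  have e1 : ∀ y : Co n LB LF → ℝ, lzm (muA (Xs n) lam η c) 1 (Sm b cB cF s η) y =
      lzm (muA (Xs n) lam η c) 1 (SbU n b (VFb vp s) (αb η))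
        (lf (pC n LB LF) (cC n cB cF vp) y) := fun y => lz_lv (lvlC hv hs b η) 1 y
  have e2 : ∀ y : Co n LB' LF' → ℝ,
      lzm (muA (Xs n) lam η c) 1 (SU b cB' cF' fun l => αb η (κ l)) y =
      lzm (muA (Xs n) lam η c) 1 (SbU n b (VFb vp s) (αb η))
        (lf (p0U n LB' κ) (cz n κ cB' cF' (VFb vp s)) y) :=
    fun y => lz_lv (lvlz hF1' b (αb η)) 1 y
  simp only [e1, e2]
  rw [int_lf (pC n LB LF) (cC n cB cF vp)
    (G := fun y => Real.exp (z * lzm (muA (Xs n) lam η c) 1 (SbU n b (VFb vp s) (αb η)) y))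
      (eg_Zx hG 1 z).meas,
    int_lf (p0U n LB' κ) (cz n κ cB' cF' (VFb vp s))
    (G := fun y => Real.exp (z * lzm (muA (Xs n) lam η c) 1 (SbU n b (VFb vp s) (αb η)) y))
      (eg_Zx hG 1 z).meas]
  simp only [vfC_tot hv hB1 hF1, vfz_tot (VFb_ne hv hs) hB1' hF1']

/-- **THE BRIDGE**, relative entropy, base space `(Unit → ℝ) × Xs n`. -/
theorem bridge_KL_unit (hl : 0 < lam) (hη : 0 ≤ η) (hv : 0 < vp) (hs : 0 < s)
    (hB1 : ∑ l, cB l ^ 2 = 1) (hF1 : ∑ l, cF l ^ 2 = vp)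
    (hB1' : ∑ l, cB' l ^ 2 = 1) (hF1' : ∀ k, ∑ l with κ l = k, cF' l ^ 2 = VFb vp s k) (y : ℝ) :
    KL (lzm (muA (Xs n) lam η c) 1 (Sm b cB cF s η)) y =
      KL (lzm (muU (nuG (fun _ : Unit => lam) η fun _ => c) n) 1
        (SU b cB' cF' fun l θ => αb η (κ l) (θ ()))) y := by
  rw [bridge_KL (c := c) hl hη hv hs hB1 hF1 hB1' hF1' y, tr_lzm (mp_unit hl hη c) (emb_unit n)]
  have e1 : (fun (e : Co n LB' LF') (w : (Unit → ℝ) × Xs n) =>
      SU b cB' cF' (fun l => αb η (κ l)) e (φu n w)) =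
      SU b cB' cF' fun l θ => αb η (κ l) (θ ()) := by
    funext e w
    rcases e with (⟨q, l⟩ | ⟨i, l⟩) | j <;> rfl
  rw [e1]

end main

end classes

end Vale.Agent.P146.H698.Br
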