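import Vale.Agent.P146.H698.Kgrid
import Vale.Agent.P146.H418.Skel

/-!
# P146: the grid path in the letters of `Law`

`law_up`, `law_low`: `H698.Kgrid` for `L.KA`, `L.rr`, `L.pp`, `L.ff`; with `S = Sn n m`.
-/

open MeasureTheory ProbabilityTheory

namespace Vale.Agent.P146.H698

open Vale.Agent.P146.H119 Vale.Agent.P146.H347 Vale.Agent.P146.H418

lemma pp_can (L : Law) (S : Finset (Fin L.n)) (t u : ℝ) :
    L.pp S t u = ppc L.n L.b L.vp L.s L.lam L.η L.c L.x S t u := rfl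

lemma ff_can (L : Law) (S : Finset (Fin L.n)) (t u : ℝ) :
    L.ff S t u = ffc L.n L.b L.vp L.s L.lam L.η L.c L.x S t u := rfl

lemma KA_can (L : Law) : L.KA = KAc L.n L.b L.vp L.s L.lam L.η L.c L.x := rfl

lemma card_Sn {n m : ℕ} (hm : m ≤ n) : ((Sn n m).card : ℝ) = n - m := by
  have h1 : (Sn n m).card = (Finset.range (n - m)).card := by
    refine Finset.card_bij (fun i _ => (i : ℕ)) (fun i hi => ?_) (fun i _ j _ h => Fin.ext h)
      fun k hk => ?_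
    · have := (Finset.mem_filter.1 hi).2
      exact Finset.mem_range.2 (by omega)
    · have hk' := Finset.mem_range.1 hk
      exact ⟨⟨k, by omega⟩, Finset.mem_filter.2 ⟨Finset.mem_univ _, by simp only; omega⟩, rfl⟩
  rw [h1, Finset.card_range, Nat.cast_sub hm]

variable (L : Law) {h u u' : ℝ} {N N' : ℕ}

/-- **The path on the grid, from below**, in the letters of `Law`. -/
theorem law_low (hl : 0 < L.lam) (hη : 0 ≤ L.η) (hx : 0 < L.x) (hv : 0 < L.vp) (hh : 0 ≤ h)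
    (h0 : 0 ≤ u) (h1 : u ≤ 1) (hn : 0 < L.n) (N : ℕ) (S : Finset (Fin L.n)) :
    L.n * L.x ^ 2 * L.b ^ 2 / 4 * ∑ l ∈ Finset.range N, (gg h l - gg h (l + 1)) *
      L.rr S (1 - gg h l) u ≤ L.KA :=
  kgrid_low hl hη hx hv hh h0 h1 hn N S

/-- **The path on the grid, from above**, in the letters of `Law`. -/
theorem law_up (hl : 0 < L.lam) (hη : 0 ≤ L.η) (hx : 0 < L.x) (hv : 0 < L.vp) (hh : 0 ≤ h)
    (h0 : 0 ≤ u) (h1 : u ≤ u') (h2 : u' ≤ 1) (hn : 0 < L.n) (hN : N ≤ N')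
    (S : Finset (Fin L.n)) :
    L.KA ≤ L.x ^ 2 / 2 * (u * L.vp) * L.ff S 0 u +
      L.n * L.x ^ 2 * L.b ^ 2 / 4 * ∑ l ∈ Finset.range N, (gg h l - gg h (l + 1)) *
        L.rr S (1 - gg h (l + 1)) u +
      L.x ^ 2 / 2 * (L.b ^ 2 / L.n * (2 * (L.n - S.card) / L.n) *
          L.pp Finset.univ (1 - gg h N) u' +
        L.vp * ((L.n - S.card) / L.n) * L.ff Finset.univ (1 - gg h N) u' +
        (u' - u) * L.vp * L.ff Finset.univ (1 - gg h N) u') +
      L.n * L.x ^ 2 * L.b ^ 2 / 4 * (∑ l ∈ Finset.Ico N N', (gg h l - gg h (l + 1)) *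
        L.rr Finset.univ (1 - gg h (l + 1)) u' + gg h N') +
      L.x ^ 2 / 2 * (L.n * ((1 - u') * L.vp + L.s ^ 2 * (1 + L.η) ^ 2)) :=
  kgrid_up hl hη hx hv hh h0 h1 h2 hn hN S

end Vale.Agent.P146.H698
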