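import Vale.Agent.P146.H119.KPathU
import Vale.Agent.P146.H698.BridgeU
import Vale.Agent.P146.H698.KgridL
import Vale.Agent.P146.H197.KUp

/-!
# P146: the numbers of one law when the modulated field is revealed at the share `g`

`L.muG`, `L.EU t u g`: base measure and energies of the canonical system of the ensemble U (classes
`Bool`: `false` plain, `true` modulated; revealed shares `t` of the bonds, `u` of the plain field,
`g` of the modulated field).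

* `L.ppg`, `L.rrg`, `L.ffg`, `L.fag`: pairs, `2 ppg / n²`, sites, sites with the amplitude;
* `QU2_can`, `QU1_can`, `QA1_can`: any level system of the ensemble U with these shares;
* `Q2_gcan`, `Q1_gcan`, `QG_gcan`: single amplitude letters with `gd` revealed or not;
* `ppg_zero`, `ffg_zero`: `g = 0` is `L.pp`, `L.ff`;
* `ppg_mono`, `rrg_mono`, `ffg_mono`, `fag_mono`, `fag_le`.
-/

open MeasureTheory ProbabilityTheory

namespace Vale.Agent.P146.H418.Law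

open Vale.Agent.P157.Lv Vale.Agent.P146.H196 Vale.Agent.P146.H646 Vale.Agent.P146.H475
  Vale.Agent.P146.H816 Vale.Agent.P146.H325 Vale.Agent.P146.H347 Vale.Agent.P146.H119
  Vale.Agent.P146.H281.U Vale.Agent.P146.H9.U Vale.Agent.P146.H698.Br

variable (L : Law)

/-- the law of the thermal variable -/
noncomputable def nuL : Measure (Unit → ℝ) := nuG (fun _ : Unit => L.lam) L.η fun _ => L.c

/-- the coefficients of the fields: `(false, i)` plain, `(true, i)` modulated, `i = true` revealed -/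
noncomputable def cfg (u g : ℝ) : Bool × Bool → ℝ := cfU (VFb L.vp L.s) (ub u g)

/-- the amplitudes of the fields -/
noncomputable def aG (l : Bool × Bool) (θ : Unit → ℝ) : ℝ := αb L.η l.1 (θ ())

/-- the pairs: `E ∑_(p inside S) (cx <σσ>)²` -/
noncomputable def ppg (S : Finset (Fin L.n)) (t u g : ℝ) : ℝ :=
  QU2 L.n L.nuL L.b (cbU t) (L.cfg u g) L.aG L.x S (Kset S {true} (FLU Bool))

/-- the sites: `E ∑_(i in S) (cx <σ>)²` -/
noncomputable def ffg (S : Finset (Fin L.n)) (t u g : ℝ) : ℝ :=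
  QU1 L.n L.nuL L.b (cbU t) (L.cfg u g) L.aG L.x (fun _ => 1) S (Kset S {true} (FLU Bool))

/-- the sites with the amplitude: `E ∑_(i in S) (cx <a σ>)²` -/
noncomputable def fag (S : Finset (Fin L.n)) (t u g : ℝ) : ℝ :=
  QU1 L.n L.nuL L.b (cbU t) (L.cfg u g) L.aG L.x (fun θ => al L.η (θ ())) S
    (Kset S {true} (FLU Bool))

/-- the second moment of the overlap of two copies, without the diagonal -/
noncomputable def rrg (S : Finset (Fin L.n)) (t u g : ℝ) : ℝ := 2 * L.ppg S t u g / L.n ^ 2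

end Vale.Agent.P146.H418.Law

namespace Vale.Agent.P146.H698

open Vale.Agent.P157.Lv hiding Dep
open Vale.Agent.P146.H425 Vale.Agent.P146.H646
open Vale.Agent.P146.H196 Vale.Agent.P146.H246 Vale.Agent.P146.H347 Vale.Agent.P146.H325
  Vale.Agent.P146.H816 Vale.Agent.P146.H119 Vale.Agent.P146.H475 Vale.Agent.P146.H418
open Vale.Agent.P146.H281.U Vale.Agent.P146.H9.U Vale.Agent.P146.H698.Br

set_option linter.unusedSectionVars false

/-! ### sums of squares as functions -/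

section sq

variable {J : Type} [Fintype J]

lemma meas_sq (r : Finset J) : Measurable fun v : J → ℝ => ∑ a ∈ r, v a ^ 2 :=
  Finset.measurable_fun_sum r fun a _ => (measurable_pi_apply a).pow_const 2

lemma bd_sq (r : Finset J) (C : ℝ) :
    ∃ C', ∀ v : J → ℝ, (∀ a, |v a| ≤ C) → |∑ a ∈ r, v a ^ 2| ≤ C' := by
  refine ⟨∑ _a ∈ r, C ^ 2, fun v hv => ?_⟩
  rw [abs_of_nonneg (Finset.sum_nonneg fun a _ => sq_nonneg (v a))]
  refine Finset.sum_le_sum fun a _ => ?_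
  rw [← sq_abs]
  exact pow_le_pow_left₀ (abs_nonneg _) (hv a) 2

end sq

section num

variable (L : Law) {LB LF LB' LF' : Type} [Fintype LB] [DecidableEq LB] [Fintype LF]
  [DecidableEq LF] [Fintype LB'] [DecidableEq LB'] [Fintype LF'] [DecidableEq LF']
variable {t u g t' u' g' : ℝ} {cB : LB → ℝ} {cF : LF → ℝ} {cB' : LB' → ℝ} {cF' : LF' → ℝ}
  {κ : LF → Bool} {κ' : LF' → Bool} {S S' : Finset (Fin L.n)} {BL : Finset LB} {FL : Finset LF}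
  {BL' : Finset LB'} {FL' : Finset LF'}

lemma VFb_nonneg (hv : 0 ≤ L.vp) (k : Bool) : 0 ≤ VFb L.vp L.s k := by
  cases k
  · exact hv
  · exact sq_nonneg L.s

lemma ub_nonneg (h0 : 0 ≤ u) (h1 : 0 ≤ g) (k : Bool) : 0 ≤ ub u g k := by
  cases k
  · exact h0
  · exact h1

lemma ub_le_one (h0 : u ≤ 1) (h1 : g ≤ 1) (k : Bool) : ub u g k ≤ 1 := by
  cases k
  · exact h0
  · exact h1

lemma ub_mono (h0 : u ≤ u') (h1 : g ≤ g') (k : Bool) : ub u g k ≤ ub u' g' k := by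
  cases k
  · exact h0
  · exact h1

/-- the canonical system -/
lemma can_sh (hv : 0 ≤ L.vp) (ht0 : 0 ≤ t) (ht1 : t ≤ 1) (hu0 : 0 ≤ u) (hu1 : u ≤ 1)
    (hg0 : 0 ≤ g) (hg1 : g ≤ 1) :
    ShU (Prod.fst : Bool × Bool → Bool) (cbU t) (L.cfg u g) {true} (FLU Bool)
      (VFb L.vp L.s) t (ub u g) :=
  canU ht0 ht1 (ub_nonneg hu0 hg0) (ub_le_one hu1 hg1) (VFb_nonneg L hv)

lemma nuL_fin (hl : 0 < L.lam) (hη : 0 ≤ L.η) : IsFiniteMeasure L.nuL :=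
  finite_nuG (fun _ => hl) hη _

lemma nuL_ne (hl : 0 < L.lam) (hη : 0 ≤ L.η) : L.nuL ≠ 0 :=
  nuG_ne (fun _ => hl) hη _

lemma amU_L (hη : 0 ≤ L.η) (κ : LF → Bool) :
    AmU (fun l (θ : Unit → ℝ) => αb L.η (κ l) (θ ())) L.η where
  nn := hη
  meas l := ((amU_b hη).meas (κ l)).comp (measurable_pi_apply ())
  bd l θ := (amU_b hη).bd (κ l) (θ ())

lemma amU_aG (hη : 0 ≤ L.η) : AmU L.aG L.η := amU_L L hη Prod.fst

lemma gm_L (hl : 0 < L.lam) (hη : 0 ≤ L.η) :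
    ∃ M0, GM (muU L.nuL L.n) (SbU L.n L.b (VFb L.vp L.s)
      fun k (θ : Unit → ℝ) => αb L.η k (θ ())) M0 :=
  ⟨_, gmU (n := L.n) L.b (fun _ : Unit => (1 : ℝ)) (fun k => √(VFb L.vp L.s k)) L.η
    (nuL_fin L hl hη) (nuL_ne L hl hη) (amU_L L hη id)⟩

/-- the observables of the ensemble U -/
lemma bm_pair (p : Pair L.n) : Bm fun w : (Unit → ℝ) × Xs L.n => SkS p w.2 := bm_SkSU p

lemma bm_site (i : Fin L.n) : Bm fun w : (Unit → ℝ) × Xs L.n => (fun _ => (1 : ℝ)) w.1 * sp w.2 i :=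
  bm_fsp measurable_const (C := 1) (fun _ => by simp) i

lemma bm_asite (hη : 0 ≤ L.η) (i : Fin L.n) :
    Bm fun w : (Unit → ℝ) × Xs L.n => (fun θ : Unit → ℝ => al L.η (θ ())) w.1 * sp w.2 i :=
  bm_fsp (f := fun θ : Unit → ℝ => al L.η (θ ()))
    ((measurable_al L.η).comp (measurable_pi_apply ())) (C := 1 + L.η)
    (fun θ => abs_al_le' hη (θ ())) i

/-- the pairs of any level system of the ensemble U -/
theorem QU2_can (hl : 0 < L.lam) (hη : 0 ≤ L.η) (hv : 0 ≤ L.vp)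
    (hs : ShU κ cB cF BL FL (VFb L.vp L.s) t (ub u g)) (ht0 : 0 ≤ t) (ht1 : t ≤ 1)
    (hu0 : 0 ≤ u) (hu1 : u ≤ 1) (hg0 : 0 ≤ g) (hg1 : g ≤ 1) (S : Finset (Fin L.n)) :
    QU2 L.n L.nuL L.b cB cF (fun l θ => αb L.η (κ l) (θ ())) L.x S (Kset S BL FL) =
      L.ppg S t u g := by
  obtain ⟨M0, hG⟩ := gm_L L hl hη
  exact congrU (J := Pair L.n) hG hs (can_sh L hv ht0 ht1 hu0 hu1 hg0 hg1) S L.x
    (f := fun p w => SkS p w.2) (bm_pair L) (Φ := fun v => ∑ p ∈ ps S, v p ^ 2)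
    (meas_sq (ps S)) (bd_sq (ps S))

/-- the sites of any level system of the ensemble U -/
theorem QU1_can (hl : 0 < L.lam) (hη : 0 ≤ L.η) (hv : 0 ≤ L.vp)
    (hs : ShU κ cB cF BL FL (VFb L.vp L.s) t (ub u g)) (ht0 : 0 ≤ t) (ht1 : t ≤ 1)
    (hu0 : 0 ≤ u) (hu1 : u ≤ 1) (hg0 : 0 ≤ g) (hg1 : g ≤ 1) (S : Finset (Fin L.n)) :
    QU1 L.n L.nuL L.b cB cF (fun l θ => αb L.η (κ l) (θ ())) L.x (fun _ => 1) S
      (Kset S BL FL) = L.ffg S t u g := by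
  obtain ⟨M0, hG⟩ := gm_L L hl hη
  exact congrU (J := Fin L.n) hG hs (can_sh L hv ht0 ht1 hu0 hu1 hg0 hg1) S L.x
    (f := fun i w => (fun _ => (1 : ℝ)) w.1 * sp w.2 i) (bm_site L)
    (Φ := fun v => ∑ i ∈ S, v i ^ 2) (meas_sq S) (bd_sq S)

/-- the sites with the amplitude of any level system of the ensemble U -/
theorem QA1_can (hl : 0 < L.lam) (hη : 0 ≤ L.η) (hv : 0 ≤ L.vp)
    (hs : ShU κ cB cF BL FL (VFb L.vp L.s) t (ub u g)) (ht0 : 0 ≤ t) (ht1 : t ≤ 1)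
    (hu0 : 0 ≤ u) (hu1 : u ≤ 1) (hg0 : 0 ≤ g) (hg1 : g ≤ 1) (S : Finset (Fin L.n)) :
    QU1 L.n L.nuL L.b cB cF (fun l θ => αb L.η (κ l) (θ ())) L.x
      (fun θ => al L.η (θ ())) S (Kset S BL FL) = L.fag S t u g := by
  obtain ⟨M0, hG⟩ := gm_L L hl hη
  exact congrU (J := Fin L.n) hG hs (can_sh L hv ht0 ht1 hu0 hu1 hg0 hg1) S L.x
    (f := fun i w => (fun θ : Unit → ℝ => al L.η (θ ())) w.1 * sp w.2 i) (bm_asite L hη)
    (Φ := fun v => ∑ i ∈ S, v i ^ 2) (meas_sq S) (bd_sq S)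

/-! ### single amplitude letters -/

lemma Kgs_br (S : Finset (Fin L.n)) (BL : Finset LB) (FL : Finset LF) :
    H119.Kgs S BL FL S = Br.Kgs S BL FL true := rfl

lemma gr_mem (g : Bool) : 0 ≤ gr g ∧ gr g ≤ 1 := by
  cases g
  · exact ⟨le_rfl, zero_le_one⟩
  · exact ⟨zero_le_one, le_rfl⟩

section co

variable (hl : 0 < L.lam) (hη : 0 ≤ L.η) (hv : 0 < L.vp) (hs : 0 < L.s)
  (hB1 : ∑ l, cB l ^ 2 = 1) (hF1 : ∑ l, cF l ^ 2 = L.vp) (hF : ∑ l ∈ FL, cF l ^ 2 = u * L.vp)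
  (hB : ∑ l ∈ BL, cB l ^ 2 = t) (ht0 : 0 ≤ t) (ht1 : t ≤ 1) (hu0 : 0 ≤ u) (hu1 : u ≤ 1)
include hl hη hv hs hB1 hF1 hF hB ht0 ht1 hu0 hu1

theorem Q2_gcan (g : Bool) (S : Finset (Fin L.n)) :
    Q2 L.n L.b cB cF L.s L.lam L.η L.c L.x S (Br.Kgs S BL FL g) = L.ppg S t u (gr g) :=
  bridge_unit (J := Pair L.n) hl hη hv hs hB1 hF1 hF hB g
    (can_sh L hv.le ht0 ht1 hu0 hu1 (gr_mem g).1 (gr_mem g).2) S L.x
    (f := fun p w => SkS p w.2) (fun p => bm_SkSU p) (Φ := fun v => ∑ p ∈ ps S, v p ^ 2)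
    (meas_sq (ps S)) (bd_sq (ps S))

theorem Q1_gcan (g : Bool) (S : Finset (Fin L.n)) :
    Q1 L.n L.b cB cF L.s L.lam L.η L.c L.x S (Br.Kgs S BL FL g) = L.ffg S t u (gr g) := by
  have h := bridge_unit (J := Fin L.n) (b := L.b) (c := L.c) hl hη hv hs hB1 hF1 hF hB g
    (can_sh L hv.le ht0 ht1 hu0 hu1 (gr_mem g).1 (gr_mem g).2) S L.x
    (f := fun i w => sp w.2 i) (fun i => bm_sp i)
    (Φ := fun v => ∑ i ∈ S, v i ^ 2) (meas_sq S) (bd_sq S)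
  refine Eq.trans h ?_
  unfold Law.ffg QU1
  simp only [one_mul]
  rfl

theorem QG_gcan (g : Bool) (S : Finset (Fin L.n)) :
    QG L.n L.b cB cF L.s L.lam L.η L.c L.x S (Br.Kgs S BL FL g) = L.fag S t u (gr g) :=
  bridge_unit (J := Fin L.n) hl hη hv hs hB1 hF1 hF hB g
    (can_sh L hv.le ht0 ht1 hu0 hu1 (gr_mem g).1 (gr_mem g).2) S L.x
    (f := fun i w => al L.η w.1 * sp w.2 i)
    (fun i => bm_fsp (measurable_al L.η) (abs_al_le' hη) i)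
    (Φ := fun v => ∑ i ∈ S, v i ^ 2) (meas_sq S) (bd_sq S)

end co

section mono

variable (hl : 0 < L.lam) (hη : 0 ≤ L.η) (hv : 0 ≤ L.vp)
include hl hη

lemma ppg_nonneg (S : Finset (Fin L.n)) (t u g : ℝ) : 0 ≤ L.ppg S t u g := by
  unfold Law.ppg
  rw [← qU2_eq L.b (cbU t) (L.cfg u g) (nuL_fin L hl hη) (nuL_ne L hl hη) (amU_aG L hη)]
  exact (lev_U L.b (cbU t) (L.cfg u g) (nuL_fin L hl hη) (nuL_ne L hl hη)
    (amU_aG L hη)).q2_nonneg L.x S _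

lemma rrg_nonneg (S : Finset (Fin L.n)) (t u g : ℝ) : 0 ≤ L.rrg S t u g := by
  have := ppg_nonneg L hl hη S t u g
  unfold Law.rrg
  positivity

lemma ffg_nonneg (S : Finset (Fin L.n)) (t u g : ℝ) : 0 ≤ L.ffg S t u g := by
  unfold Law.ffg
  rw [← qU1_eq L.b (cbU t) (L.cfg u g) (nuL_fin L hl hη) (nuL_ne L hl hη)
    (amU_aG L hη) measurable_const (C := 1) (fun _ => by simp)]
  exact Finset.sum_nonneg fun _ _ => en_nonneg (lev_U L.b (cbU t) (L.cfg u g)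
    (nuL_fin L hl hη) (nuL_ne L hl hη) (amU_aG L hη)).lip L.x _ _

lemma fag_nonneg (S : Finset (Fin L.n)) (t u g : ℝ) : 0 ≤ L.fag S t u g := by
  unfold Law.fag
  rw [← qU1_eq L.b (cbU t) (L.cfg u g) (nuL_fin L hl hη) (nuL_ne L hl hη)
    (amU_aG L hη) (f := fun θ : Unit → ℝ => al L.η (θ ()))
    ((measurable_al L.η).comp (measurable_pi_apply ())) (C := 1 + L.η)
    (fun θ => abs_al_le' hη (θ ()))]
  exact Finset.sum_nonneg fun _ _ => en_nonneg (lev_U L.b (cbU t) (L.cfg u g)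
    (nuL_fin L hl hη) (nuL_ne L hl hη) (amU_aG L hη)).lip L.x _ _

include hv

theorem ppg_mono (hS : S ⊆ S') (ht0 : 0 ≤ t) (ht : t ≤ t') (ht1 : t' ≤ 1) (hu0 : 0 ≤ u)
    (hu : u ≤ u') (hu1 : u' ≤ 1) (hg0 : 0 ≤ g) (hg : g ≤ g') (hg1 : g' ≤ 1) :
    L.ppg S t u g ≤ L.ppg S' t' u' g' := by
  obtain ⟨M0, hG⟩ := gm_L L hl hη
  exact monoU2 (J := Pair L.n) hG (can_sh L hv ht0 (ht.trans ht1) hu0 (hu.trans hu1) hg0
    (hg.trans hg1)) (can_sh L hv (ht0.trans ht) ht1 (hu0.trans hu) hu1 (hg0.trans hg) hg1) hS ht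
    (ub_mono hu hg) L.x (ps_mono hS) (f := fun p w => SkS p w.2) (bm_pair L)

theorem rrg_mono (hS : S ⊆ S') (ht0 : 0 ≤ t) (ht : t ≤ t') (ht1 : t' ≤ 1) (hu0 : 0 ≤ u)
    (hu : u ≤ u') (hu1 : u' ≤ 1) (hg0 : 0 ≤ g) (hg : g ≤ g') (hg1 : g' ≤ 1) :
    L.rrg S t u g ≤ L.rrg S' t' u' g' := by
  have h := ppg_mono L hl hη hv hS ht0 ht ht1 hu0 hu hu1 hg0 hg hg1
  unfold Law.rrg
  gcongr

theorem ffg_mono (hS : S ⊆ S') (ht0 : 0 ≤ t) (ht : t ≤ t') (ht1 : t' ≤ 1) (hu0 : 0 ≤ u)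
    (hu : u ≤ u') (hu1 : u' ≤ 1) (hg0 : 0 ≤ g) (hg : g ≤ g') (hg1 : g' ≤ 1) :
    L.ffg S t u g ≤ L.ffg S' t' u' g' := by
  obtain ⟨M0, hG⟩ := gm_L L hl hη
  exact monoU2 (J := Fin L.n) hG (can_sh L hv ht0 (ht.trans ht1) hu0 (hu.trans hu1) hg0
    (hg.trans hg1)) (can_sh L hv (ht0.trans ht) ht1 (hu0.trans hu) hu1 (hg0.trans hg) hg1) hS ht
    (ub_mono hu hg) L.x hS (f := fun i w => (fun _ => (1 : ℝ)) w.1 * sp w.2 i) (bm_site L)

theorem fag_mono (hS : S ⊆ S') (ht0 : 0 ≤ t) (ht : t ≤ t') (ht1 : t' ≤ 1) (hu0 : 0 ≤ u)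
    (hu : u ≤ u') (hu1 : u' ≤ 1) (hg0 : 0 ≤ g) (hg : g ≤ g') (hg1 : g' ≤ 1) :
    L.fag S t u g ≤ L.fag S' t' u' g' := by
  obtain ⟨M0, hG⟩ := gm_L L hl hη
  exact monoU2 (J := Fin L.n) hG (can_sh L hv ht0 (ht.trans ht1) hu0 (hu.trans hu1) hg0
    (hg.trans hg1)) (can_sh L hv (ht0.trans ht) ht1 (hu0.trans hu) hu1 (hg0.trans hg) hg1) hS ht
    (ub_mono hu hg) L.x hS (f := fun i w => (fun θ : Unit → ℝ => al L.η (θ ())) w.1 * sp w.2 i)
    (bm_asite L hη)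

end mono

/-- nothing of the modulated field is revealed -/
theorem ppg_zero (hl : 0 < L.lam) (hη : 0 ≤ L.η) (hv : 0 < L.vp) (hs : 0 < L.s) (ht0 : 0 ≤ t)
    (ht1 : t ≤ 1) (hu0 : 0 ≤ u) (hu1 : u ≤ 1) (S : Finset (Fin L.n)) :
    L.ppg S t u 0 = L.pp S t u := by
  have h := sh_can L.vp ht0 ht1 hu0 hu1
  have h0 := h.totF
  have h1 := h.shF
  have h2 := h.totB
  have h3 := h.shB
  rw [Real.sq_sqrt hv.le] at h0 h1
  rw [one_pow] at h2 h3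
  rw [mul_one] at h3
  exact (Q2_gcan L hl hη hv hs h2 h0 h1 h3 ht0 ht1 hu0 hu1 false S).symm

theorem ffg_zero (hl : 0 < L.lam) (hη : 0 ≤ L.η) (hv : 0 < L.vp) (hs : 0 < L.s) (ht0 : 0 ≤ t)
    (ht1 : t ≤ 1) (hu0 : 0 ≤ u) (hu1 : u ≤ 1) (S : Finset (Fin L.n)) :
    L.ffg S t u 0 = L.ff S t u := by
  have h := sh_can L.vp ht0 ht1 hu0 hu1
  have h0 := h.totF
  have h1 := h.shF
  have h2 := h.totB
  have h3 := h.shB
  rw [Real.sq_sqrt hv.le] at h0 h1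
  rw [one_pow] at h2 h3
  rw [mul_one] at h3
  exact (Q1_gcan L hl hη hv hs h2 h0 h1 h3 ht0 ht1 hu0 hu1 false S).symm

end num

end Vale.Agent.P146.H698
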