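import Vale.Agent.P146.H698.FoC
import Vale.Agent.P146.H698.KgridL

/-!
# P146: the entropy path whose last part is replaced by two exponents

`KA` is at most the path on the grid up to the share `1 - gg h N` (inside `S`), the rows, and
`x m / (m - x)` times the increment of the functional when the share `gg h N` of the bonds goes
from the exponent `x` to the exponent `m` (`PsiT` without the field, `PsiV` with the field).
-/

open MeasureTheory ProbabilityTheory

namespace Vale.Agent.P146.H698.FO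

open Vale.Agent.P157.Lv hiding Dep
open Vale.Agent.P146.H425 Vale.Agent.P146.H646 Vale.Agent.P146.H119 Vale.Agent.P146.H196
open Vale.Agent.P146.H246 Vale.Agent.P146.H347 Vale.Agent.P146.H816 Vale.Agent.P146.H475
open Vale.Agent.P146.H325 (sp abs_sp Tc SkS)
open Vale.Agent.P146.H9 (Phn)
open Vale.Agent.P146.H418

set_option linter.unusedSectionVars false

section far

variable {n : ℕ} {LB LF : Type} [Fintype LB] [DecidableEq LB] [Fintype LF] [DecidableEq LF]
variable {b s lam η c x m T V R : ℝ} {cB : LB → ℝ} {cF : LF → ℝ} {BL : Finset LB}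
  {FL : Finset LF}

/-- **the far part of the entropy path** -/
theorem far_part (hl : 0 < lam) (hη : 0 ≤ η) (hx : 0 < x) (hxm : x < m) (hm1 : m ≤ 1)
    (BL : Finset LB) (FL : Finset LF) (hB : ∑ l, cB l ^ 2 = 1)
    (hT : ∑ l ∈ BL, cB l ^ 2 = 1 - T) (hV : ∑ l ∈ FL, cF l ^ 2 = V)
    (hR : ∑ l, cF l ^ 2 = V + R) :
    ent x (Fm n b cB cF s lam η c) Finset.univ -
        ent x (Fm n b cB cF s lam η c) (Kset Finset.univ BL FL) ≤
      x * m / (m - x) * (PsiV n b V x m T - Phn n b x V +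
        n * (R + s ^ 2 * (1 + η) ^ 2) / 2) := by
  have hm0 : 0 < m := hx.trans hxm
  have hL := (lev_sk (n := n) b cB cF s c hl hη).lip
  have h1 := ent_two hL hx hxm (Kset Finset.univ BL FL)
  have h2 := two_up (n := n) (b := b) (s := s) (c := c) hl hη hx hxm.le hm1 BL FL hB hT hV hR
  have h3 := one_low (n := n) (b := b) (s := s) (c := c) hl hη hx FL hB hV
  have h4 : (1 / x - 1 / m) * (ent x (Fm n b cB cF s lam η c) Finset.univ -
      ent x (Fm n b cB cF s lam η c) (Kset Finset.univ BL FL)) ≤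
      PsiV n b V x m T - Phn n b x V + n * (R + s ^ 2 * (1 + η) ^ 2) / 2 := by
    linarith
  have h5 : 0 < m - x := sub_pos.2 hxm
  have h6 : 0 ≤ x * m / (m - x) := by positivity
  have h7 := mul_le_mul_of_nonneg_left h4 h6
  refine le_trans (le_of_eq ?_) h7
  have h8 : x * m / (m - x) * (1 / x - 1 / m) = 1 := by
    field_simp
  rw [← mul_assoc, h8, one_mul]

end far

/-! ### the path up to the level `N` -/

section main

variable {n : ℕ} {b v s lam η c x m h u u' : ℝ} {N : ℕ}

theorem kgrid_main (hl : 0 < lam) (hη : 0 ≤ η) (hx : 0 < x) (hv : 0 < v) (hh : 0 ≤ h)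
    (h0 : 0 ≤ u) (h1 : u ≤ u') (h2 : u' ≤ 1) (hn : 0 < n) (S : Finset (Fin n)) :
    ent x (Fm n b (cG h N) (cH v u u') s lam η c) (Kset Finset.univ (BG N N) {0, 1}) -
        ent x (Fm n b (cG h N) (cH v u u') s lam η c) ∅ ≤
      x ^ 2 / 2 * (u * v) * ffc n b v s lam η c x S 0 u +
      n * x ^ 2 * b ^ 2 / 4 * ∑ l ∈ Finset.range N, (gg h l - gg h (l + 1)) *
        (2 * ppc n b v s lam η c x S (1 - gg h (l + 1)) u / n ^ 2) +
      x ^ 2 / 2 * (b ^ 2 / n * (2 * (n - S.card) / n) *
          ppc n b v s lam η c x Finset.univ (1 - gg h N) u' +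
        v * ((n - S.card) / n) * ffc n b v s lam η c x Finset.univ (1 - gg h N) u' +
        (u' - u) * v * ffc n b v s lam η c x Finset.univ (1 - gg h N) u') := by
  have hn' : (0 : ℝ) < n := by exact_mod_cast hn
  have hu1 : u ≤ 1 := h1.trans h2
  have hu'0 : 0 ≤ u' := h0.trans h1
  have hL := lev_sk (n := n) b (cG h N) (cH v u u') s c hl hη
  set F := Fm n b (cG h N) (cH v u u') s lam η c with hF
  obtain ⟨gN0, gN1⟩ := one_sub_gg hh N
  have cN : 0 ≤ (n : ℝ) - S.card := by
    have := Finset.card_le_univ S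
    rw [Fintype.card_fin] at this
    exact sub_nonneg.2 (by exact_mod_cast this)
  have x2 : 0 ≤ x ^ 2 / 2 := by positivity
  -- the field stage
  have s1 : ent x F (Kset S (∅ : Finset (Fin (N + 1))) {0}) - ent x F ∅ ≤
      x ^ 2 / 2 * (u * v) * ffc n b v s lam η c x S 0 u := by
    have e1 := ent_up hL.c11 hx (Finset.empty_subset (Kset S (∅ : Finset (Fin (N + 1))) {0}))
    rw [hL.sum_en, Finset.sum_empty] at e1
    have e2 : sh (fun l => b / √n * cG h N l) ∅ = 0 := by unfold sh; simp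
    rw [e2, zero_mul, zero_add, sub_zero, q1_eq b _ _ s c hl hη] at e1
    have e3 : sh (cH v u u') {0} = u * v := shr_H0 hv.le h0 h1 h2
    have c0 : Q1 n b (cG h N) (cH v u u') s lam η c x S (Kset S ∅ {0}) =
        ffc n b v s lam η c x S 0 u := by
      have := sh_G0 (h := h) (N' := N) (l := 0) hh (Nat.zero_le _) hv.le h0 h1 h2
      rw [BG_zero, gg_zero, sub_self] at this
      exact Q1_can hl hη hv this le_rfl zero_le_one h0 hu1
    rw [e3, c0] at e1
    linarith
  -- the bonds inside `S`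
  have s2 : ent x F (Kset S (BG N N) {0}) - ent x F (Kset S (∅ : Finset (Fin (N + 1))) {0}) ≤
      n * x ^ 2 * b ^ 2 / 4 * ∑ l ∈ Finset.range N, (gg h l - gg h (l + 1)) *
        (2 * ppc n b v s lam η c x S (1 - gg h (l + 1)) u / n ^ 2) := by
    have e1 : ∑ l ∈ Finset.range N,
        (ent x F (Kset S (BG N (l + 1)) {0}) - ent x F (Kset S (BG N l) {0})) ≤
        ∑ l ∈ Finset.range N, n * x ^ 2 * b ^ 2 / 4 * ((gg h l - gg h (l + 1)) *
        (2 * ppc n b v s lam η c x S (1 - gg h (l + 1)) u / n ^ 2)) := by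
      refine Finset.sum_le_sum fun l hl' => ?_
      have hlN : l < N := Finset.mem_range.1 hl'
      have e2 := hL.stage_le (S := S) hx (BG_mono N (Nat.le_succ l))
        (Finset.Subset.refl ({0} : Finset (Fin 3)))
      rw [sub_self, zero_mul, add_zero, sh_bond, sh_bond, q2_eq b _ _ s c hl hη] at e2
      obtain ⟨g0, g1⟩ := one_sub_gg hh (l + 1)
      rw [Q2_can hl hη hv (sh_G0 (l := l + 1) hh (by omega) hv.le h0 h1 h2) g0 g1 h0 hu1,
        shr_BG hh (show l ≤ N by omega), shr_BG hh (show l + 1 ≤ N by omega)] at e2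
      refine e2.trans (le_of_eq ?_)
      field_simp
      ring
    rw [Finset.sum_range_sub (fun l => ent x F (Kset S (BG N l) {0})), BG_zero,
      ← Finset.mul_sum] at e1
    exact e1
  -- the hidden rows and the fields
  have s3 : ent x F (Kset Finset.univ (BG N N) {0, 1}) - ent x F (Kset S (BG N N) {0}) ≤
      x ^ 2 / 2 * (b ^ 2 / n * (2 * (n - S.card) / n) *
          ppc n b v s lam η c x Finset.univ (1 - gg h N) u' +
        v * ((n - S.card) / n) * ffc n b v s lam η c x Finset.univ (1 - gg h N) u' +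
        (u' - u) * v * ffc n b v s lam η c x Finset.univ (1 - gg h N) u') := by
    have e1 := ent_up hL.c11 hx (Kset_mono (Finset.subset_univ S)
      (Finset.Subset.refl (BG N N)) (show ({0} : Finset (Fin 3)) ⊆ {0, 1} by simp))
    rw [hL.sum_en, hL.sum_en, sh_bond, q2_eq b _ _ s c hl hη, q2_eq b _ _ s c hl hη,
      q1_eq b _ _ s c hl hη, q1_eq b _ _ s c hl hη] at e1
    refine e1.trans (mul_le_mul_of_nonneg_left ?_ x2)
    have a1 := Q2_touch (b := b) (cB := cG h N) (cF := cH v u u') (s := s) (c := c) (x := x)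
      hl hη hn S (BG N N) {0, 1}
    have a2 := Q1_touch (b := b) (cB := cG h N) (cF := cH v u u') (s := s) (c := c) (x := x)
      hl hη hn S (BG N N) {0, 1}
    have a3 := Q1_mono (b := b) (cB := cG h N) (cF := cH v u u') (s := s) (c := c) (x := x)
      hl hη (Finset.subset_univ S) (Finset.Subset.refl (Kset Finset.univ (BG N N) {0, 1}))
    have c2 : Q2 n b (cG h N) (cH v u u') s lam η c x Finset.univ
        (Kset Finset.univ (BG N N) {0, 1}) =
        ppc n b v s lam η c x Finset.univ (1 - gg h N) u' :=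
      Q2_can hl hη hv (sh_G1 hh le_rfl hv.le h0 h1 h2) gN0 gN1 hu'0 h2
    have c1 : Q1 n b (cG h N) (cH v u u') s lam η c x Finset.univ
        (Kset Finset.univ (BG N N) {0, 1}) =
        ffc n b v s lam η c x Finset.univ (1 - gg h N) u' :=
      Q1_can hl hη hv (sh_G1 hh le_rfl hv.le h0 h1 h2) gN0 gN1 hu'0 h2
    rw [c2] at a1
    rw [c1] at a2 a3
    have e3 : sh (cH v u u') {0} = u * v := shr_H0 hv.le h0 h1 h2
    have e4 : sh (cH v u u') {0, 1} = u' * v := shr_H1 hv.le h0 h1 h2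
    rw [c1, c2, e3, e4, shr_BG hh le_rfl]
    have p0 : 0 ≤ ppc n b v s lam η c x Finset.univ (1 - gg h N) u' := Q2_nonneg hl hη _ _
    have q0 : 0 ≤ ffc n b v s lam η c x Finset.univ (1 - gg h N) u' := Q1_nonneg hl hη _ _
    have b2 : b ^ 2 / n * (1 - gg h N) *
        (ppc n b v s lam η c x Finset.univ (1 - gg h N) u' -
          Q2 n b (cG h N) (cH v u u') s lam η c x S (Kset Finset.univ (BG N N) {0, 1})) ≤
        b ^ 2 / n * (2 * (n - S.card) / n) *
          ppc n b v s lam η c x Finset.univ (1 - gg h N) u' := by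
      have e1 : 0 ≤ b ^ 2 / n := by positivity
      calc b ^ 2 / n * (1 - gg h N) * _ ≤ b ^ 2 / n * (1 - gg h N) *
            (2 * (n - S.card) / n * ppc n b v s lam η c x Finset.univ (1 - gg h N) u') :=
            mul_le_mul_of_nonneg_left a1 (mul_nonneg e1 gN0)
        _ ≤ b ^ 2 / n * 1 *
            (2 * (n - S.card) / n * ppc n b v s lam η c x Finset.univ (1 - gg h N) u') :=
            mul_le_mul_of_nonneg_right (mul_le_mul_of_nonneg_left gN1 e1) (by positivity)
        _ = _ := by ring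
    have b1 : u' * v * (ffc n b v s lam η c x Finset.univ (1 - gg h N) u' -
          Q1 n b (cG h N) (cH v u u') s lam η c x S (Kset Finset.univ (BG N N) {0, 1})) ≤
        v * ((n - S.card) / n) * ffc n b v s lam η c x Finset.univ (1 - gg h N) u' := by
      rw [a2]
      calc u' * v * ((n - S.card) / n * ffc n b v s lam η c x Finset.univ (1 - gg h N) u') ≤
            1 * v * ((n - S.card) / n * ffc n b v s lam η c x Finset.univ (1 - gg h N) u') :=
            mul_le_mul_of_nonneg_right (mul_le_mul_of_nonneg_right h2 hv.le)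
              (mul_nonneg (div_nonneg cN hn'.le) q0)
        _ = _ := by ring
    have b0 : (u' * v - u * v) *
        Q1 n b (cG h N) (cH v u u') s lam η c x S (Kset Finset.univ (BG N N) {0, 1}) ≤
        (u' - u) * v * ffc n b v s lam η c x Finset.univ (1 - gg h N) u' := by
      have e1 : 0 ≤ (u' - u) * v := mul_nonneg (sub_nonneg.2 h1) hv.le
      calc (u' * v - u * v) * _ = (u' - u) * v * _ := by ring
        _ ≤ _ := mul_le_mul_of_nonneg_left a3 e1
    linarith
  linarith

/-- **the path with two exponents, the field kept** -/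
theorem kgrid_farV (hl : 0 < lam) (hη : 0 ≤ η) (hx : 0 < x) (hxm : x < m) (hm1 : m ≤ 1)
    (hv : 0 < v) (hh : 0 ≤ h) (h0 : 0 ≤ u) (h1 : u ≤ u') (h2 : u' ≤ 1) (hn : 0 < n) (N : ℕ)
    (S : Finset (Fin n)) :
    KAc n b v s lam η c x ≤ x ^ 2 / 2 * (u * v) * ffc n b v s lam η c x S 0 u +
      n * x ^ 2 * b ^ 2 / 4 * ∑ l ∈ Finset.range N, (gg h l - gg h (l + 1)) *
        (2 * ppc n b v s lam η c x S (1 - gg h (l + 1)) u / n ^ 2) +
      x ^ 2 / 2 * (b ^ 2 / n * (2 * (n - S.card) / n) *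
          ppc n b v s lam η c x Finset.univ (1 - gg h N) u' +
        v * ((n - S.card) / n) * ffc n b v s lam η c x Finset.univ (1 - gg h N) u' +
        (u' - u) * v * ffc n b v s lam η c x Finset.univ (1 - gg h N) u') +
      x * m / (m - x) * (PsiV n b (u' * v) x m (gg h N) - Phn n b x (u' * v) +
        n * ((1 - u') * v + s ^ 2 * (1 + η) ^ 2) / 2) := by
  have hL := (lev_sk (n := n) b (cG h N) (cH v u u') s c hl hη).lip
  have a1 := kgrid_main (b := b) (s := s) (c := c) (N := N) hl hη hx hv hh h0 h1 h2 hn S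
  have a2 := far_part (n := n) (b := b) (s := s) (c := c) (cB := cG h N) (cF := cH v u u')
    (T := gg h N) (V := u' * v) (R := (1 - u') * v) hl hη hx hxm hm1 (BG N N) {0, 1}
    (shr_top hh N) (shr_BG hh le_rfl) (shr_H1 hv.le h0 h1 h2) (by
      have := shr_H hv.le h0 h1 h2
      unfold shr at this
      rw [this]
      ring)
  rw [← KL_can (b := b) (s := s) (c := c) (x := x) (cB := cG h N) (cF := cH v u u') hl hη hv
    (shr_top hh N) (shr_H hv.le h0 h1 h2), KL_eq_ent hL]
  linarith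

/-- **the path with two exponents, the field integrated out** -/
theorem kgrid_far0 (hl : 0 < lam) (hη : 0 ≤ η) (hx : 0 < x) (hxm : x < m) (hm1 : m ≤ 1)
    (hv : 0 < v) (hh : 0 ≤ h) (h0 : 0 ≤ u) (h1 : u ≤ 1) (hn : 0 < n) (N : ℕ)
    (S : Finset (Fin n)) :
    KAc n b v s lam η c x ≤ x ^ 2 / 2 * (u * v) * ffc n b v s lam η c x S 0 u +
      n * x ^ 2 * b ^ 2 / 4 * ∑ l ∈ Finset.range N, (gg h l - gg h (l + 1)) *
        (2 * ppc n b v s lam η c x S (1 - gg h (l + 1)) u / n ^ 2) +
      x ^ 2 / 2 * (b ^ 2 / n * (2 * (n - S.card) / n) *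
          ppc n b v s lam η c x Finset.univ (1 - gg h N) u +
        v * ((n - S.card) / n) * ffc n b v s lam η c x Finset.univ (1 - gg h N) u) +
      x * m / (m - x) * (PsiT n b x m (gg h N) - Phn n b x 0 +
        n * (v + s ^ 2 * (1 + η) ^ 2) / 2) := by
  have hL := (lev_sk (n := n) b (cG h N) (cH v u u) s c hl hη).lip
  have a1 := kgrid_main (b := b) (s := s) (c := c) (N := N) hl hη hx hv hh h0 le_rfl h1 hn S
  have a2 := far_part (n := n) (b := b) (s := s) (c := c) (cB := cG h N) (cF := cH v u u)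
    (T := gg h N) (V := 0) (R := v) hl hη hx hxm hm1 (BG N N) ∅
    (shr_top hh N) (shr_BG hh le_rfl) (Finset.sum_empty) (by
      have := shr_H hv.le h0 le_rfl h1
      unfold shr at this
      rw [this]
      ring)
  have a3 := ent_mono hL x (Kset_mono (Finset.Subset.refl (Finset.univ : Finset (Fin n)))
    (Finset.Subset.refl (BG N N)) (Finset.empty_subset ({0, 1} : Finset (Fin 3))))
  rw [PsiV_zero] at a2
  rw [← KL_can (b := b) (s := s) (c := c) (x := x) (cB := cG h N) (cF := cH v u u) hl hη hv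
    (shr_top hh N) (shr_H hv.le h0 le_rfl h1), KL_eq_ent hL]
  have a4 : (u - u) * v * ffc n b v s lam η c x Finset.univ (1 - gg h N) u = 0 := by ring
  rw [a4, add_zero] at a1
  linarith

end main

/-! ### in the letters of `Law` -/

variable (L : Law) {h u u' m : ℝ}

/-- **The path with two exponents**, field integrated out. -/
theorem lc_path0 (hl : 0 < L.lam) (hη : 0 ≤ L.η) (hx : 0 < L.x) (hxm : L.x < m) (hm1 : m ≤ 1)
    (hv : 0 < L.vp) (hh : 0 ≤ h) (h0 : 0 ≤ u) (h1 : u ≤ 1) (hn : 0 < L.n) (N : ℕ)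
    (S : Finset (Fin L.n)) :
    L.KA ≤ L.x ^ 2 / 2 * (u * L.vp) * L.ff S 0 u +
      L.n * L.x ^ 2 * L.b ^ 2 / 4 * ∑ l ∈ Finset.range N, (gg h l - gg h (l + 1)) *
        L.rr S (1 - gg h (l + 1)) u +
      L.x ^ 2 / 2 * (L.b ^ 2 / L.n * (2 * (L.n - S.card) / L.n) *
          L.pp Finset.univ (1 - gg h N) u +
        L.vp * ((L.n - S.card) / L.n) * L.ff Finset.univ (1 - gg h N) u) +
      L.x * m / (m - L.x) * (PsiT L.n L.b L.x m (gg h N) - Phn L.n L.b L.x 0 +
        L.n * (L.vp + L.s ^ 2 * (1 + L.η) ^ 2) / 2) :=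
  kgrid_far0 hl hη hx hxm hm1 hv hh h0 h1 hn N S

/-- **The path with two exponents**, the share `u'` of the field kept. -/
theorem lc_pathV (hl : 0 < L.lam) (hη : 0 ≤ L.η) (hx : 0 < L.x) (hxm : L.x < m) (hm1 : m ≤ 1)
    (hv : 0 < L.vp) (hh : 0 ≤ h) (h0 : 0 ≤ u) (h1 : u ≤ u') (h2 : u' ≤ 1) (hn : 0 < L.n)
    (N : ℕ) (S : Finset (Fin L.n)) :
    L.KA ≤ L.x ^ 2 / 2 * (u * L.vp) * L.ff S 0 u +
      L.n * L.x ^ 2 * L.b ^ 2 / 4 * ∑ l ∈ Finset.range N, (gg h l - gg h (l + 1)) *
        L.rr S (1 - gg h (l + 1)) u +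
      L.x ^ 2 / 2 * (L.b ^ 2 / L.n * (2 * (L.n - S.card) / L.n) *
          L.pp Finset.univ (1 - gg h N) u' +
        L.vp * ((L.n - S.card) / L.n) * L.ff Finset.univ (1 - gg h N) u' +
        (u' - u) * L.vp * L.ff Finset.univ (1 - gg h N) u') +
      L.x * m / (m - L.x) * (PsiV L.n L.b (u' * L.vp) L.x m (gg h N) -
        Phn L.n L.b L.x (u' * L.vp) +
        L.n * ((1 - u') * L.vp + L.s ^ 2 * (1 + L.η) ^ 2) / 2) :=
  kgrid_farV hl hη hx hxm hm1 hv hh h0 h1 h2 hn N S

end Vale.Agent.P146.H698.FO
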