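import Vale.Agent.P146.H9.Mod

/-!
# P146: the functional with two exponents

* `PsiT n β y m T`: the share `T` of the bonds at the exponent `m`, the rest at the exponent `y`;
* `PsiV n β V y m T`: the same with a plain field of variance `V` at the exponent `y`.
-/

open MeasureTheory ProbabilityTheory

namespace Vale.Agent.P146.H698.FO

open Vale.Agent.P146 Vale.Agent.P146.H425 Vale.Agent.P146.H877 Vale.Agent.P157.Lv

/-- the share `T` of the bonds at the exponent `m`, the rest at the exponent `y` -/
noncomputable def PsiT (n : ℕ) (β y m T : ℝ) : ℝ :=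
  1 / y * Real.log (∫ g, Real.exp (y / m * Real.log (∫ g', Real.exp (m * freeEnergy n β
    (√(1 - T) • g + √T • g')) ∂(disorder n))) ∂(disorder n))

/-- the same with a plain field of variance `V` at the exponent `y` -/
noncomputable def PsiV (n : ℕ) (β V y m T : ℝ) : ℝ :=
  1 / y * Real.log (∫ z, ∫ g, Real.exp (y / m * Real.log (∫ g', Real.exp (m *
    FH n β (√V • z) (√(1 - T) • g + √T • g')) ∂(disorder n))) ∂(disorder n) ∂(gI (Fin n)))

theorem PsiV_zero (n : ℕ) (β y m T : ℝ) : PsiV n β 0 y m T = PsiT n β y m T := by
  unfold PsiV PsiT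
  simp only [Real.sqrt_zero, zero_smul, FH_zero, integral_const, probReal_univ, one_smul]

end Vale.Agent.P146.H698.FO
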