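import Vale.Agent.P146.H9.Mono
import Vale.Agent.P146.H246.Inst
import Vale.Agent.P146.H281.U1
import Vale.Agent.P146.H529.Link4

/-!
# P146: congruence and monotonicity in the shares for the ensemble U

Coordinates `Co n LB LF`, energies `H281.U.SU b cB cF a`. The field levels are sorted into
classes, `κ : LF → A`, `a l = α (κ l)`, with total variance `VF k` of the class `k`.

`ShU κ cB cF BL FL VF t u`: the frozen share of the bonds is `t`, the frozen share of the class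
`k` is `u k`. The law of the conditional means given `Kset S BL FL` depends on `(S, t, u)` only
(`skU_congr`), energies are monotone (`skU_mono2`, `skU_mono4`).
-/

open MeasureTheory ProbabilityTheory

namespace Vale.Agent.P146.H698

open Vale.Agent.P157.Lv hiding Dep
open Vale.Agent.P146.H425 Vale.Agent.P146.H332 Vale.Agent.P146.H646
open Vale.Agent.P146.H196 Vale.Agent.P146.H246 Vale.Agent.P146.H347 Vale.Agent.P146.H325
  Vale.Agent.P146.H816 Vale.Agent.P146.H9 Vale.Agent.P146.H281.U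

set_option linter.unusedSectionVars false

variable {n : ℕ} {Th A LB LF LB' LF' : Type} [MeasurableSpace Th] [Fintype A] [DecidableEq A]
  [Fintype LB] [DecidableEq LB] [Fintype LF] [DecidableEq LF]
  [Fintype LB'] [DecidableEq LB'] [Fintype LF'] [DecidableEq LF']

/-- forget the levels -/
def pU (n : ℕ) (LB : Type) (κ : LF → A) : Co n LB LF → Co n Unit A :=
  Sum.map (Sum.map (fun e => (e.1, ())) fun e => (e.1, κ e.2)) id

/-- the coefficients of the levels -/
noncomputable def cU (n : ℕ) (cB : LB → ℝ) (cF : LF → ℝ) (κ : LF → A) (VF : A → ℝ) :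
    Co n LB LF → ℝ :=
  Sum.elim (Sum.elim (fun e => cB e.2) fun e => cF e.2 / √(VF (κ e.2))) fun _ => 1

variable {b η : ℝ} {cB : LB → ℝ} {cF : LF → ℝ} {κ : LF → A} {VF : A → ℝ}
  {cB' : LB' → ℝ} {cF' : LF' → ℝ} {κ' : LF' → A} {α : A → Th → ℝ}

/-- the basic energies -/
noncomputable abbrev SUb (n : ℕ) (b : ℝ) (VF : A → ℝ) (α : A → Th → ℝ) :
    Co n Unit A → Th × Xs n → ℝ :=
  SU b (fun _ : Unit => 1) (fun k => √(VF k)) α

theorem lvlU (hV : ∀ k, 0 < VF k) : Lvl (pU n LB κ) (cU n cB cF κ VF)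
    (SUb n b VF α) (SU b cB cF (fun l => α (κ l))) := by
  intro j w
  rcases j with (⟨q, l⟩ | ⟨i, l⟩) | j
  · show b / √n * cB l * SkS q w.2 = cB l * (b / √n * 1 * SkS q w.2)
    ring
  · show cF l * α (κ l) w.1 * sp w.2 i =
      cF l / √(VF (κ l)) * (√(VF (κ l)) * α (κ l) w.1 * sp w.2 i)
    have : √(VF (κ l)) ≠ 0 := (Real.sqrt_pos.2 (hV _)).ne'
    field_simp
  · show _ = 1 * _
    rw [one_mul]
    rfl

lemma amU_comp (h : AmU α η) (κ : LF → A) : AmU (fun l => α (κ l)) η :=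
  ⟨h.nn, fun l => h.meas (κ l), fun l => h.bd (κ l)⟩

/-! ### the fibres -/

lemma fibU_bd (κ : LF → A) (q : Pair n) (g : Co n LB LF → ℝ) :
    ∑ j with pU n LB κ j = bd A q (), g j = ∑ l, g (bd LF q l) := by
  have e : (Finset.univ.filter fun j => pU n LB κ j = bd A q ()) =
      Finset.univ.image fun l => bd LF q l := by
    ext j
    rcases j with (⟨q', l⟩ | ⟨i, l⟩) | j <;> simp [pU, eq_comm]
  rw [e, Finset.sum_image]
  intro l _ l' _ h
  simpa using h

lemma fibU_fd (κ : LF → A) (i : Fin n) (k : A) (g : Co n LB LF → ℝ) :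
    ∑ j with pU n LB κ j = fd Unit i k, g j = ∑ l with κ l = k, g (fd LB i l) := by
  have e : (Finset.univ.filter fun j => pU n LB κ j = fd Unit i k) =
      (Finset.univ.filter fun l => κ l = k).image fun l => fd LB i l := by
    ext j
    rcases j with (⟨q', l⟩ | ⟨i', l⟩) | j
    · refine iff_of_false (fun h => ?_) fun h => ?_
      · have h3 : (Sum.inl (Sum.inl (q', ())) : Co n Unit A) = Sum.inl (Sum.inr (i, k)) :=
          (Finset.mem_filter.1 h).2
        exact Sum.inl_ne_inr (Sum.inl.inj h3)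
      · obtain ⟨l', -, h2⟩ := Finset.mem_image.1 h
        have h3 : (Sum.inl (Sum.inr (i, l')) : Co n LB LF) = Sum.inl (Sum.inl (q', l)) := h2
        exact Sum.inr_ne_inl (Sum.inl.inj h3)
    · simp only [Finset.mem_filter, Finset.mem_univ, true_and, Finset.mem_image]
      constructor
      · intro h
        have h2 : (i', κ l) = (i, k) := by
          have h3 : (Sum.inl (Sum.inr (i', κ l)) : Co n Unit A) = Sum.inl (Sum.inr (i, k)) := h
          exact Sum.inr.inj (Sum.inl.inj h3)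
        obtain ⟨h4, h5⟩ := Prod.mk.inj h2
        exact ⟨l, h5, by rw [h4]⟩
      · rintro ⟨l', h1, h2⟩
        have h3 : (Sum.inl (Sum.inr (i, l')) : Co n LB LF) = Sum.inl (Sum.inr (i', l)) := h2
        obtain ⟨h4, h5⟩ := Prod.mk.inj (Sum.inr.inj (Sum.inl.inj h3))
        show (Sum.inl (Sum.inr (i', κ l)) : Co n Unit A) = Sum.inl (Sum.inr (i, k))
        rw [← h4, ← h5, h1]
    · refine iff_of_false (fun h => ?_) fun h => ?_
      · have h3 : (Sum.inr j : Co n Unit A) = Sum.inl (Sum.inr (i, k)) :=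
          (Finset.mem_filter.1 h).2
        exact Sum.inr_ne_inl h3
      · obtain ⟨l', -, h2⟩ := Finset.mem_image.1 h
        have h3 : (Sum.inl (Sum.inr (i, l')) : Co n LB LF) = Sum.inr j := h2
        exact Sum.inl_ne_inr h3
  rw [e, Finset.sum_image]
  intro l _ l' _ h
  simpa using h

lemma fibU_gd (κ : LF → A) (i : Fin n) (g : Co n LB LF → ℝ) :
    ∑ j with pU n LB κ j = gd Unit A i, g j = g (gd LB LF i) := by
  have e : (Finset.univ.filter fun j => pU n LB κ j = gd Unit A i) = {gd LB LF i} := by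
    ext j
    rw [Finset.mem_filter, Finset.mem_singleton]
    refine ⟨fun h => ?_, fun h => ⟨Finset.mem_univ _, by rw [h]; rfl⟩⟩
    have h2 := h.2
    rcases j with (⟨q', l⟩ | ⟨i', l⟩) | j
    · exact absurd h2 (by simp [pU])
    · exact absurd h2 (by simp [pU])
    · have h3 : (Sum.inr j : Co n Unit A) = Sum.inr i := h2
      rw [Sum.inr.inj h3]
  rw [e, Finset.sum_singleton]

variable {S S' : Finset (Fin n)} {BL : Finset LB} {FL : Finset LF} {BL' : Finset LB'}
  {FL' : Finset LF'} {t t' : ℝ} {u u' : A → ℝ}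

/-- the shares of the levels: `t` for the frozen bonds, `u k` for the frozen fields of the
class `k` -/
structure ShU (κ : LF → A) (cB : LB → ℝ) (cF : LF → ℝ) (BL : Finset LB) (FL : Finset LF)
    (VF : A → ℝ) (t : ℝ) (u : A → ℝ) : Prop where
  totB : ∑ l, cB l ^ 2 = 1
  totF : ∀ k, ∑ l with κ l = k, cF l ^ 2 = VF k
  shB : ∑ l ∈ BL, cB l ^ 2 = t
  shF : ∀ k, ∑ l ∈ FL with κ l = k, cF l ^ 2 = u k * VF k

/-- the frozen shares of the basic coordinates -/
noncomputable def qU (S : Finset (Fin n)) (t : ℝ) (u : A → ℝ) : Co n Unit A → ℝ :=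
  Sum.elim (Sum.elim (fun e => if e.1.1.1 ∈ S ∧ e.1.1.2 ∈ S then t else 0)
    fun e => if e.1 ∈ S then u e.2 else 0) fun _ => 0

theorem vfU_one (hV : ∀ k, 0 < VF k) (hs : ShU κ cB cF BL FL VF t u) (e : Co n Unit A) :
    vf (pU n LB κ) (cU n cB cF κ VF) e = 1 := by
  unfold vf
  rcases e with (⟨q, l⟩ | ⟨i, k⟩) | j
  · rw [fibU_bd]
    exact hs.totB
  · rw [fibU_fd]
    have h1 : ∀ l ∈ Finset.univ.filter fun l => κ l = k,
        cU n cB cF κ VF (fd LB i l) ^ 2 = cF l ^ 2 / VF k := by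
      intro l hl
      have h2 : κ l = k := (Finset.mem_filter.1 hl).2
      show (cF l / √(VF (κ l))) ^ 2 = _
      rw [div_pow, Real.sq_sqrt (hV _).le, h2]
    rw [Finset.sum_congr rfl h1, ← Finset.sum_div, hs.totF, div_self (hV k).ne']
  · rw [fibU_gd]
    show (1 : ℝ) ^ 2 = 1
    norm_num

theorem vfU_re (hV : ∀ k, 0 < VF k) (hs : ShU κ cB cF BL FL VF t u) (e : Co n Unit A) :
    vf (pU n LB κ) (re (Kset S BL FL) (cU n cB cF κ VF)) e = qU S t u e := by
  unfold vf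
  rcases e with (⟨q, l⟩ | ⟨i, k⟩) | j
  · rw [fibU_bd]
    show ∑ l, (if bd LF q l ∈ Kset S BL FL then cB l else 0) ^ 2 =
      if q.1.1 ∈ S ∧ q.1.2 ∈ S then t else 0
    simp only [bd_memK]
    by_cases hq : q.1.1 ∈ S ∧ q.1.2 ∈ S
    · simp only [hq, true_and, and_self, if_true]
      have h1 : ∀ l, (if l ∈ BL then cB l else 0) ^ 2 = if l ∈ BL then cB l ^ 2 else 0 := by
        intro l
        split_ifs
        · rfl
        · norm_num
      simp only [h1]
      rw [Finset.sum_ite_mem, Finset.univ_inter, hs.shB]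
    · simp only [hq, false_and, if_false]
      simp
  · rw [fibU_fd]
    show ∑ l with κ l = k, (if fd LB i l ∈ Kset S BL FL then cF l / √(VF (κ l)) else 0) ^ 2 =
      if i ∈ S then u k else 0
    simp only [fd_memK]
    by_cases hq : i ∈ S
    · simp only [hq, true_and, if_true]
      have h1 : ∀ l ∈ Finset.univ.filter fun l => κ l = k,
          (if l ∈ FL then cF l / √(VF (κ l)) else 0) ^ 2 =
            (if l ∈ FL then cF l ^ 2 else 0) / VF k := by
        intro l hl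
        have h2 : κ l = k := (Finset.mem_filter.1 hl).2
        split_ifs
        · rw [div_pow, Real.sq_sqrt (hV _).le, h2]
        · norm_num
      rw [Finset.sum_congr rfl h1, ← Finset.sum_div]
      have h3 : ∑ l with κ l = k, (if l ∈ FL then cF l ^ 2 else 0) =
          ∑ l ∈ FL with κ l = k, cF l ^ 2 := by
        rw [Finset.sum_filter, Finset.sum_filter, ← Finset.sum_filter_add_sum_filter_not
          Finset.univ (fun l => l ∈ FL)]
        have h4 : ∑ l with l ∉ FL, (if κ l = k then if l ∈ FL then cF l ^ 2 else 0 else 0) =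
            0 := by
          refine Finset.sum_eq_zero fun l hl => ?_
          rw [if_neg (Finset.mem_filter.1 hl).2]
          simp
        rw [h4, add_zero]
        refine Finset.sum_congr (by ext l; simp) fun l hl => ?_
        rw [if_pos hl]
      rw [h3, hs.shF, mul_div_cancel_right₀ _ (hV k).ne']
    · simp only [hq, false_and, if_false]
      simp
  · rw [fibU_gd]
    show (if gd LB LF j ∈ Kset S BL FL then (1 : ℝ) else 0) ^ 2 = 0
    rw [if_neg (gd_memK j)]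
    norm_num

lemma lsU (hV : ∀ k, 0 < VF k) (hs : ShU κ cB cF BL FL VF t u) (S : Finset (Fin n)) :
    Ls (pU n LB κ) (cU n cB cF κ VF) (Kset S BL FL) (qU S t u) (fun e => 1 - qU S t u e) :=
  Ls.of_one (vfU_one hV hs) (vfU_re hV hs)

lemma qU_mono (hS : S ⊆ S') (ht0 : 0 ≤ t') (hu0 : ∀ k, 0 ≤ u' k) (ht : t ≤ t')
    (hu : ∀ k, u k ≤ u' k) (e : Co n Unit A) : qU S t u e ≤ qU S' t' u' e := by
  rcases e with (⟨q, l⟩ | ⟨i, l⟩) | j
  · show (if q.1.1 ∈ S ∧ q.1.2 ∈ S then t else 0) ≤ if q.1.1 ∈ S' ∧ q.1.2 ∈ S' then t' else 0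
    by_cases h1 : q.1.1 ∈ S ∧ q.1.2 ∈ S
    · rw [if_pos h1, if_pos ⟨hS h1.1, hS h1.2⟩]
      exact ht
    · rw [if_neg h1]
      split_ifs <;> linarith
  · show (if i ∈ S then u l else 0) ≤ if i ∈ S' then u' l else 0
    by_cases h1 : i ∈ S
    · rw [if_pos h1, if_pos (hS h1)]
      exact hu l
    · rw [if_neg h1]
      split_ifs
      · exact hu0 l
      · exact le_rfl
  · exact le_refl (0 : ℝ)

lemma ShU.t0 (hs : ShU κ cB cF BL FL VF t u) : 0 ≤ t := by
  rw [← hs.shB]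
  exact Finset.sum_nonneg fun _ _ => sq_nonneg _

lemma ShU.t1 (hs : ShU κ cB cF BL FL VF t u) : t ≤ 1 := by
  rw [← hs.shB, ← hs.totB]
  exact Finset.sum_le_sum_of_subset_of_nonneg (Finset.subset_univ _) fun _ _ _ => sq_nonneg _

lemma ShU.u0 (hV : ∀ k, 0 < VF k) (hs : ShU κ cB cF BL FL VF t u) (k : A) : 0 ≤ u k := by
  have h1 : 0 ≤ u k * VF k := by
    rw [← hs.shF]
    exact Finset.sum_nonneg fun _ _ => sq_nonneg _
  exact nonneg_of_mul_nonneg_left h1 (hV k)

lemma ShU.u1 (hV : ∀ k, 0 < VF k) (hs : ShU κ cB cF BL FL VF t u) (k : A) : u k ≤ 1 := by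
  have h1 : u k * VF k ≤ 1 * VF k := by
    rw [← hs.shF, one_mul, ← hs.totF]
    refine Finset.sum_le_sum_of_subset_of_nonneg ?_ fun _ _ _ => sq_nonneg _
    exact Finset.filter_subset_filter _ (Finset.subset_univ _)
  exact le_of_mul_le_mul_right h1 (hV k)

variable {ν : Measure Th} {I : Type} [Fintype I] {f : I → Th × Xs n → ℝ}

/-- **CONGRUENCE** -/
theorem skU_congr (hν : IsFiniteMeasure ν) (h0 : ν ≠ 0) (hA : AmU α η)
    (hV : ∀ k, 0 < VF k) (hs : ShU κ cB cF BL FL VF t u) (hs' : ShU κ' cB' cF' BL' FL' VF t u)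
    (S : Finset (Fin n)) (x : ℝ) (hf : ∀ i, Bm (f i)) {Φ : (I → ℝ) → ℝ} (hΦ : Measurable Φ)
    (hΦC : ∀ C, ∃ C', ∀ v : I → ℝ, (∀ i, |v i| ≤ C) → |Φ v| ≤ C') :
    eg (muU ν n) (SU b cB cF (fun l => α (κ l))) x
        (fun z => Φ fun i => cg (muU ν n) (SU b cB cF (fun l => α (κ l))) x
          (Kset S BL FL) (f i) z) =
      eg (muU ν n) (SU b cB' cF' (fun l => α (κ' l))) x
        (fun z => Φ fun i => cg (muU ν n) (SU b cB' cF' (fun l => α (κ' l))) x
          (Kset S BL' FL') (f i) z) :=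
  eg_congr (gmU (n := n) b (fun _ : Unit => (1 : ℝ)) (fun k => √(VF k)) η hν h0 hA)
    (lvlU hV) (lvlU hV) (lsU hV hs S) (lsU hV hs' S) x hf hΦ hΦC

/-- **MONOTONICITY**, second moments -/
theorem skU_mono2 (hν : IsFiniteMeasure ν) (h0 : ν ≠ 0) (hA : AmU α η)
    (hV : ∀ k, 0 < VF k) (hs : ShU κ cB cF BL FL VF t u) (hs' : ShU κ' cB' cF' BL' FL' VF t' u')
    (hS : S ⊆ S') (ht : t ≤ t') (hu : ∀ k, u k ≤ u' k) (x : ℝ) {r r' : Finset I} (hr : r ⊆ r')
    (hf : ∀ i, Bm (f i)) :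
    eg (muU ν n) (SU b cB cF (fun l => α (κ l))) x
        (fun z => ∑ i ∈ r, cg (muU ν n) (SU b cB cF (fun l => α (κ l))) x
          (Kset S BL FL) (f i) z ^ 2) ≤
      eg (muU ν n) (SU b cB' cF' (fun l => α (κ' l))) x
        (fun z => ∑ i ∈ r', cg (muU ν n) (SU b cB' cF' (fun l => α (κ' l))) x
          (Kset S' BL' FL') (f i) z ^ 2) :=
  eg_mono2 (gmU (n := n) b (fun _ : Unit => (1 : ℝ)) (fun k => √(VF k)) η hν h0 hA)
    (lvlU hV) (lvlU hV) (lsU hV hs S) (lsU hV hs' S')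
    (qU_mono hS hs'.t0 (hs'.u0 hV) ht hu) (fun e => by ring) x hr hf

/-- **MONOTONICITY**, fourth moments -/
theorem skU_mono4 (hν : IsFiniteMeasure ν) (h0 : ν ≠ 0) (hA : AmU α η)
    (hV : ∀ k, 0 < VF k) (hs : ShU κ cB cF BL FL VF t u) (hs' : ShU κ' cB' cF' BL' FL' VF t' u')
    (hS : S ⊆ S') (ht : t ≤ t') (hu : ∀ k, u k ≤ u' k) (x : ℝ) {r r' : Finset I} (hr : r ⊆ r')
    (hf : ∀ i, Bm (f i)) :
    eg (muU ν n) (SU b cB cF (fun l => α (κ l))) x
        (fun z => (∑ i ∈ r, cg (muU ν n) (SU b cB cF (fun l => α (κ l))) x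
          (Kset S BL FL) (f i) z ^ 2) ^ 2) ≤
      eg (muU ν n) (SU b cB' cF' (fun l => α (κ' l))) x
        (fun z => (∑ i ∈ r', cg (muU ν n) (SU b cB' cF' (fun l => α (κ' l))) x
          (Kset S' BL' FL') (f i) z ^ 2) ^ 2) :=
  eg_mono4 (gmU (n := n) b (fun _ : Unit => (1 : ℝ)) (fun k => √(VF k)) η hν h0 hA)
    (lvlU hV) (lvlU hV) (lsU hV hs S) (lsU hV hs' S')
    (qU_mono hS hs'.t0 (hs'.u0 hV) ht hu) (fun e => by ring) x hr hf

/-! ### the entropy -/

theorem lm_levelsU (hν : IsFiniteMeasure ν) (h0 : ν ≠ 0) (hA : AmU α η)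
    (hV : ∀ k, 0 < VF k) (hB : ∑ l, cB l ^ 2 = 1) (hF : ∀ k, ∑ l with κ l = k, cF l ^ 2 = VF k)
    (k z : ℝ) : H529.lm (lzm (muU ν n) k (SU b cB cF (fun l => α (κ l)))) z =
      H529.lm (lzm (muU ν n) k (SUb n b VF α)) z := by
  have hG := gmU (n := n) b (fun _ : Unit => (1 : ℝ)) (fun k => √(VF k)) η hν h0 hA
  have hs : ShU κ cB cF (∅ : Finset LB) (∅ : Finset LF) VF 0 0 :=
    ⟨hB, hF, by simp, by simp⟩
  have hv := vfU_one (n := n) hV hs
  unfold H529.lm
  congr 1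
  have e1 : ∀ y : Co n LB LF → ℝ, lzm (muU ν n) k (SU b cB cF (fun l => α (κ l))) y =
      lzm (muU ν n) k (SUb n b VF α) (lf (pU n LB κ) (cU n cB cF κ VF) y) :=
    fun y => lz_lv (lvlU hV) k y
  simp only [e1]
  rw [int_lf (pU n LB κ) (cU n cB cF κ VF)
    (G := fun y => Real.exp (z * lzm (muU ν n) k (SUb n b VF α) y)) (eg_Zx hG k z).meas]
  simp only [hv, Real.sqrt_one, one_mul]

/-- **`KL` depends on the total variances only.** -/
theorem KL_levelsU (hν : IsFiniteMeasure ν) (h0 : ν ≠ 0) (hA : AmU α η)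
    (hV : ∀ k, 0 < VF k) (hB : ∑ l, cB l ^ 2 = 1) (hF : ∀ k, ∑ l with κ l = k, cF l ^ 2 = VF k)
    (y : ℝ) : KL (lzm (muU ν n) 1 (SU b cB cF (fun l => α (κ l)))) y =
      KL (lzm (muU ν n) 1 (SUb n b VF α)) y := by
  have hG := gmU (n := n) b (fun _ : Unit => (1 : ℝ)) (fun k => √(VF k)) η hν h0 hA
  have hG1 := gmU (n := n) b cB cF η hν h0 (amU_comp hA κ)
  exact H529.KL_congr (hG1.c11 1).lip (hG1.c11 1).B0 (hG.c11 1).lip (hG.c11 1).B0
    (fun z => lm_levelsU hν h0 hA hV hB hF 1 z) y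

end Vale.Agent.P146.H698
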