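import Vale.Agent.P146.H119.KrowB

/-!
# P146: the entropy production and two exponents

* `ent_two`: `(1/y - 1/m) (ent univ - ent K)` is at most the increment of the functional when the
  coordinates off `K` go from the exponent `y` to the exponent `m`;
* `two_le`: integrating out coordinates off `B ⊇ K` (upper bound); `one_ge`: the same at one
  exponent (lower bound).
-/

open MeasureTheory ProbabilityTheory

namespace Vale.Agent.P146.H698.FO

open Vale.Agent.P157.Lv hiding Dep
open Vale.Agent.P146.H425 Vale.Agent.P146.H646 Vale.Agent.P146.H119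

set_option linter.unusedSectionVars false

/-- Jensen for the exponential under a weight -/
lemma jens {α : Type} [MeasurableSpace α] {μ : Measure α} {W f : α → ℝ} (hW : ∀ z, 0 ≤ W z)
    (hWi : Integrable W μ) (hWf : Integrable (fun z => W z * f z) μ)
    (hWe : Integrable (fun z => W z * Real.exp (f z)) μ) (hA : 0 < ∫ z, W z ∂μ) :
    (∫ z, W z ∂μ) * Real.exp ((∫ z, W z * f z ∂μ) / ∫ z, W z ∂μ) ≤
      ∫ z, W z * Real.exp (f z) ∂μ := by
  set A := ∫ z, W z ∂μ with hA'
  set a := (∫ z, W z * f z ∂μ) / A with ha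
  have h1 : ∀ z, Real.exp a * (W z * (1 - a) + W z * f z) ≤ W z * Real.exp (f z) := by
    intro z
    have h2 : Real.exp a * (1 + (f z - a)) ≤ Real.exp (f z) := by
      have h3 := Real.add_one_le_exp (f z - a)
      calc Real.exp a * (1 + (f z - a)) ≤ Real.exp a * Real.exp (f z - a) :=
            mul_le_mul_of_nonneg_left (by linarith) (Real.exp_pos a).le
        _ = Real.exp (f z) := by
            rw [← Real.exp_add]
            congr 1
            ring
    calc Real.exp a * (W z * (1 - a) + W z * f z) = W z * (Real.exp a * (1 + (f z - a))) := by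
          ring
      _ ≤ _ := mul_le_mul_of_nonneg_left h2 (hW z)
  have h3 := integral_mono (((hWi.mul_const (1 - a)).add hWf).const_mul (Real.exp a)) hWe h1
  have h4 : ∫ z, Real.exp a * (W z * (1 - a) + W z * f z) ∂μ = A * Real.exp a := by
    rw [integral_const_mul, integral_add (hWi.mul_const _) hWf, integral_mul_const, ← hA']
    have h5 : ∫ z, W z * f z ∂μ = a * A := by
      rw [ha, div_mul_cancel₀ _ hA.ne']
    rw [h5]
    ring
  rw [← h4]
  exact h3

variable {κ : Type} [Fintype κ] [DecidableEq κ] {F Fb : (κ → ℝ) → ℝ} {y m : ℝ} {K B : Finset κ}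

/-- the mean of `F` under the tilted law given `K` -/
noncomputable def mF (y : ℝ) (F : (κ → ℝ) → ℝ) (K : Finset κ) (z : κ → ℝ) : ℝ :=
  ∫ z', Real.exp (y * F (glue K z z')) * F (glue K z z') ∂(gI κ)

lemma tan_pt (hF : Lip F) (K : Finset κ) (z : κ → ℝ) :
    lwn y F K z + (m - y) * (mF y F K z / Real.exp (lwn y F K z)) ≤ lwn m F K z := by
  have hg := lip_glue_right hF K z
  have h1 := jens (μ := gI κ) (W := fun z' => Real.exp (y * F (glue K z z')))
    (f := fun z' => (m - y) * F (glue K z z')) (fun _ => (Real.exp_pos _).le)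
    (hg.exp_eg y).integrable ((hg.exp_eg y).mul (hg.eg.const_mul (m - y))).integrable
    ((hg.exp_eg y).mul (hg.exp_eg (m - y))).integrable
    (integral_exp_pos (hg.exp_eg y).integrable)
  have e1 : ∀ z', Real.exp (y * F (glue K z z')) * Real.exp ((m - y) * F (glue K z z')) =
      Real.exp (m * F (glue K z z')) := by
    intro z'
    rw [← Real.exp_add]
    congr 1
    ring
  have e2 : ∀ z', Real.exp (y * F (glue K z z')) * ((m - y) * F (glue K z z')) =
      (m - y) * (Real.exp (y * F (glue K z z')) * F (glue K z z')) := by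
    intro z'
    ring
  simp only [e1, e2] at h1
  rw [integral_const_mul] at h1
  have e3 : ∫ z', Real.exp (y * F (glue K z z')) ∂(gI κ) = Real.exp (lwn y F K z) :=
    (exp_lwn hF K z).symm
  have e4 : ∫ z', Real.exp (m * F (glue K z z')) ∂(gI κ) = Real.exp (lwn m F K z) :=
    (exp_lwn hF K z).symm
  rw [e3, e4, ← Real.exp_add, Real.exp_le_exp, mul_div_assoc] at h1
  exact h1

lemma int_lwn (hF : Lip F) (K : Finset κ) :
    ∫ z, Real.exp (lwn y F K z) * lwn y F K z ∂(gI κ) =
      ∫ z, Real.exp (y * F z) * lwn y F K z ∂(gI κ) := by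
  have hi : Integrable (fun z => Real.exp (y * F z) * lwn y F K z) (Measure.pi (gm κ)) :=
    ((hF.exp_eg y).mul (lip_lwn hF y K).eg).integrable
  rw [← integral_glue (gm κ) K hi]
  refine integral_congr_ae (Filter.Eventually.of_forall fun z => ?_)
  simp only
  rw [exp_lwn hF]
  simp only [dep_lwn K z]
  rw [integral_mul_const]
  rfl

/-- **The entropy production is controlled by the functional with two exponents.** -/
theorem ent_two (hF : Lip F) (hy : 0 < y) (hm : y < m) (K : Finset κ) :
    (1 / y - 1 / m) * (ent y F Finset.univ - ent y F K) ≤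
      1 / y * Real.log (∫ z, Real.exp (y / m * lwn m F K z) ∂(gI κ)) -
        1 / y * Real.log (∫ z, Real.exp (y * F z) ∂(gI κ)) := by
  have hm0 : 0 < m := hy.trans hm
  have hw := wt_exp hF y
  have hA : 0 < ∫ z, Real.exp (y * F z) ∂(gI κ) := hw.tot_pos
  set A := ∫ z, Real.exp (y * F z) ∂(gI κ) with hA'
  have hLy := lip_lwn hF y K
  have hLm := lip_lwn hF m K
  -- the total mass
  have hi : Integrable (fun z => Real.exp (y * F z)) (Measure.pi (gm κ)) := hw.int
  have a1 : ∫ z, Real.exp (lwn y F K z) ∂(gI κ) = A := by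
    rw [hA', ← integral_glue (gm κ) K hi]
    exact integral_congr_ae (Filter.Eventually.of_forall fun z => exp_lwn hF K z)
  have g1 : EG fun z => Real.exp (lwn y F K z) := by
    simpa only [one_mul] using hLy.exp_eg 1
  have hlip : Lip fun z => y / m * lwn m F K z + -1 * lwn y F K z :=
    (hLm.const_mul _).add (hLy.const_mul _)
  have gl : EG fun z => Real.exp (y / m * lwn m F K z + -1 * lwn y F K z) := by
    simpa only [one_mul] using hlip.exp_eg 1
  -- Jensen for the outer coordinates
  have a2 := jens (μ := gI κ) (W := fun z => Real.exp (lwn y F K z))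
    (f := fun z => y / m * lwn m F K z + -1 * lwn y F K z) (fun _ => (Real.exp_pos _).le)
    g1.integrable (g1.mul hlip.eg).integrable (g1.mul gl).integrable (by rw [a1]; exact hA)
  rw [a1] at a2
  have e1 : ∀ z, Real.exp (lwn y F K z) *
      Real.exp (y / m * lwn m F K z + -1 * lwn y F K z) = Real.exp (y / m * lwn m F K z) := by
    intro z
    rw [← Real.exp_add]
    congr 1
    ring
  simp only [e1] at a2
  -- the integral of the exponent
  have hFe : Integrable (fun z => Real.exp (y * F z) * F z) (Measure.pi (gm κ)) :=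
    ((hF.exp_eg y).mul hF.eg).integrable
  have i1 : Integrable (fun z => mF y F K z) (gI κ) :=
    (integrable_glue (gm κ) K hFe).integral_prod_left
  have i2 : Integrable (fun z => Real.exp (lwn y F K z) * lwn y F K z) (gI κ) :=
    (g1.mul hLy.eg).integrable
  have a3 : ∫ z, mF y F K z ∂(gI κ) = ∫ z, Real.exp (y * F z) * F z ∂(gI κ) :=
    integral_glue (gm κ) K hFe
  have a4 : ∀ z, (1 - y / m) * (y * mF y F K z - Real.exp (lwn y F K z) * lwn y F K z) ≤
      Real.exp (lwn y F K z) * (y / m * lwn m F K z + -1 * lwn y F K z) := by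
    intro z
    have h1 := tan_pt (y := y) (m := m) hF K z
    have h2 : 0 < Real.exp (lwn y F K z) := Real.exp_pos _
    set E := Real.exp (lwn y F K z) with hE
    have h3 : mF y F K z = E * (mF y F K z / E) := by
      rw [mul_div_cancel₀ _ h2.ne']
    set r := mF y F K z / E with hr
    rw [h3]
    have h4 : y / m * (lwn y F K z + (m - y) * r) ≤ y / m * lwn m F K z :=
      mul_le_mul_of_nonneg_left h1 (div_pos hy hm0).le
    have h5 : y / m * (m - y) = (1 - y / m) * y := by
      field_simp
    have h6 : (1 - y / m) * (y * r - lwn y F K z) ≤ y / m * lwn m F K z + -1 * lwn y F K z := by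
      have : y / m * ((m - y) * r) = (1 - y / m) * y * r := by rw [← mul_assoc, h5]
      nlinarith
    calc (1 - y / m) * (y * (E * r) - E * lwn y F K z) =
          E * ((1 - y / m) * (y * r - lwn y F K z)) := by ring
      _ ≤ _ := mul_le_mul_of_nonneg_left h6 h2.le
  have a5 := integral_mono (((i1.const_mul y).sub i2).const_mul (1 - y / m))
    (g1.mul hlip.eg).integrable a4
  rw [integral_const_mul, integral_sub' (i1.const_mul y) i2, integral_const_mul, a3,
    int_lwn hF K] at a5
  -- the entropies
  have b1 : ent y F Finset.univ = (y * ∫ z, Real.exp (y * F z) * F z ∂(gI κ)) / A := by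
    unfold ent ex
    simp only [lwn_univ]
    rw [hA', ← integral_const_mul]
    congr 1
    refine integral_congr_ae (Filter.Eventually.of_forall fun z => ?_)
    simp only
    ring
  have b2 : ent y F K = (∫ z, Real.exp (y * F z) * lwn y F K z ∂(gI κ)) / A := rfl
  -- conclusion
  have c1 : A * Real.exp ((1 - y / m) * (ent y F Finset.univ - ent y F K)) ≤
      ∫ z, Real.exp (y / m * lwn m F K z) ∂(gI κ) := by
    refine le_trans (mul_le_mul_of_nonneg_left (Real.exp_le_exp.2 ?_) hA.le) a2
    rw [le_div_iff₀ hA]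
    refine le_trans (le_of_eq ?_) a5
    rw [b1, b2]
    field_simp
  have c2 := Real.log_le_log (mul_pos hA (Real.exp_pos _)) c1
  rw [Real.log_mul hA.ne' (Real.exp_pos _).ne', Real.log_exp] at c2
  have c3 : 1 / y * ((1 - y / m) * (ent y F Finset.univ - ent y F K)) =
      (1 / y - 1 / m) * (ent y F Finset.univ - ent y F K) := by
    field_simp
  rw [← c3, ← mul_sub]
  exact mul_le_mul_of_nonneg_left (by linarith) (by positivity)

/-! ### integrating out -/

lemma glue_mix {K B : Finset κ} (hK : K ⊆ B) (z z1 z2 : κ → ℝ) :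
    glue K z (glue B z1 z2) = glue B (glue K z z1) z2 := by
  funext e
  by_cases h1 : e ∈ K
  · rw [glue_mem h1, glue_mem (hK h1), glue_mem h1]
  · rw [glue_not_mem h1]
    by_cases h2 : e ∈ B
    · rw [glue_mem h2, glue_mem h2, glue_not_mem h1]
    · rw [glue_not_mem h2, glue_not_mem h2]

/-- Jensen for powers at most one -/
lemma pow_jens {α : Type} [MeasurableSpace α] {μ : Measure α} [IsProbabilityMeasure μ]
    {G : α → ℝ} {m c : ℝ} (hm0 : 0 ≤ m) (hm1 : m ≤ 1) (h1 : Integrable (fun z => Real.exp (G z)) μ)
    (hm : Integrable (fun z => Real.exp (m * G z)) μ)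
    (hc : ∫ z, Real.exp (G z) ∂μ ≤ Real.exp c) :
    ∫ z, Real.exp (m * G z) ∂μ ≤ Real.exp (m * c) := by
  have h2 : ∀ z, Real.exp (m * G z) ≤
      Real.exp (m * c) * (m * Real.exp (-c) * Real.exp (G z) + (1 - m)) := by
    intro z
    have h3 := convexOn_exp.2 (Set.mem_univ (G z - c)) (Set.mem_univ 0) hm0
      (sub_nonneg.2 hm1) (by ring)
    simp only [smul_eq_mul, mul_zero, add_zero, Real.exp_zero, mul_one] at h3
    calc Real.exp (m * G z) = Real.exp (m * c) * Real.exp (m * (G z - c)) := by
          rw [← Real.exp_add]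
          congr 1
          ring
      _ ≤ Real.exp (m * c) * (m * Real.exp (G z - c) + (1 - m)) :=
          mul_le_mul_of_nonneg_left h3 (Real.exp_pos _).le
      _ = _ := by
          rw [show G z - c = -c + G z by ring, Real.exp_add]
          ring
  have h4 := integral_mono hm (((h1.const_mul (m * Real.exp (-c))).add
    (integrable_const (1 - m))).const_mul (Real.exp (m * c))) h2
  refine h4.trans ?_
  rw [integral_const_mul, integral_add' (h1.const_mul _) (integrable_const _),
    integral_const_mul, integral_const, probReal_univ, one_smul]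
  have h5 : m * Real.exp (-c) * ∫ z, Real.exp (G z) ∂μ ≤ m := by
    calc m * Real.exp (-c) * ∫ z, Real.exp (G z) ∂μ ≤ m * Real.exp (-c) * Real.exp c :=
          mul_le_mul_of_nonneg_left hc (by positivity)
      _ = m := by
          rw [mul_assoc, ← Real.exp_add]
          simp
  calc Real.exp (m * c) * (m * Real.exp (-c) * ∫ z, Real.exp (G z) ∂μ + (1 - m)) ≤
        Real.exp (m * c) * (m + (1 - m)) :=
        mul_le_mul_of_nonneg_left (by linarith) (Real.exp_pos _).le
    _ = _ := by ring

/-- integrating out the coordinates off `B`, inner exponent at most one -/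
theorem lwn_le (hF : Lip F) (hFb : Lip Fb) (hK : K ⊆ B) (hm0 : 0 ≤ m)
    (hm1 : m ≤ 1) {c1 : ℝ}
    (h1 : ∀ z, ∫ z', Real.exp (F (glue B z z')) ∂(gI κ) ≤ Real.exp (Fb z + c1)) (z : κ → ℝ) :
    lwn m F K z ≤ m * c1 + lwn m Fb K z := by
  have hg := lip_glue_right hF K z
  have hgb := lip_glue_right hFb K z
  have hi : Integrable (fun z' => Real.exp (m * F (glue K z z'))) (Measure.pi (gm κ)) :=
    (hg.exp_eg m).integrable
  have e1 : Real.exp (lwn m F K z) ≤ Real.exp (m * c1) * Real.exp (lwn m Fb K z) := by
    rw [exp_lwn hF, exp_lwn hFb]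
    unfold wn
    rw [← integral_glue (gm κ) B hi, ← integral_const_mul]
    refine integral_mono (integrable_glue (gm κ) B hi).integral_prod_left
      ((hgb.exp_eg m).integrable.const_mul _) fun z1 => ?_
    simp only
    have hg1 := lip_glue_right hF B (glue K z z1)
    have e2 : ∀ z2, F (glue K z (glue B z1 z2)) = F (glue B (glue K z z1) z2) := fun z2 => by
      rw [glue_mix hK]
    simp only [e2]
    refine (pow_jens (μ := gI κ) hm0 hm1 (by simpa only [one_mul] using (hg1.exp_eg 1).integrable)
      (hg1.exp_eg m).integrable (h1 (glue K z z1))).trans (le_of_eq ?_)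
    rw [← Real.exp_add]
    congr 1
    ring
  rw [← Real.exp_add] at e1
  exact Real.exp_le_exp.1 e1

/-- the functional with two exponents, after integrating out the coordinates off `B` -/
theorem two_le (hF : Lip F) (hFb : Lip Fb) (hK : K ⊆ B) (hy : 0 ≤ y) (hm0 : 0 < m)
    (hm1 : m ≤ 1) {c1 : ℝ}
    (h1 : ∀ z, ∫ z', Real.exp (F (glue B z z')) ∂(gI κ) ≤ Real.exp (Fb z + c1)) :
    ∫ z, Real.exp (y / m * lwn m F K z) ∂(gI κ) ≤
      Real.exp (y * c1) * ∫ z, Real.exp (y / m * lwn m Fb K z) ∂(gI κ) := by
  rw [← integral_const_mul]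
  refine integral_mono ((lip_lwn hF m K).exp_eg _).integrable
    (((lip_lwn hFb m K).exp_eg _).integrable.const_mul _) fun z => ?_
  simp only
  rw [← Real.exp_add]
  refine Real.exp_le_exp.2 ?_
  have h2 := mul_le_mul_of_nonneg_left (lwn_le hF hFb hK hm0.le hm1 h1 z)
    (div_nonneg hy hm0.le)
  refine h2.trans (le_of_eq ?_)
  field_simp

/-- one exponent, from below -/
theorem one_ge (hF : Lip F) (hFb : Lip Fb) (hy : 0 ≤ y) {c2 : ℝ}
    (h2 : ∀ z, Fb z - c2 ≤ ∫ z', F (glue B z z') ∂(gI κ)) :
    Real.exp (-(y * c2)) * ∫ z, Real.exp (y * Fb z) ∂(gI κ) ≤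
      ∫ z, Real.exp (y * F z) ∂(gI κ) := by
  have hi : Integrable (fun z => Real.exp (y * F z)) (Measure.pi (gm κ)) :=
    (hF.exp_eg y).integrable
  rw [← integral_glue (gm κ) B hi, ← integral_const_mul]
  refine integral_mono ((hFb.exp_eg y).integrable.const_mul _)
    (integrable_glue (gm κ) B hi).integral_prod_left fun z => ?_
  simp only
  have hg := lip_glue_right hF B z
  have h3 := jens (μ := gI κ) (W := fun _ => 1) (f := fun z' => y * F (glue B z z'))
    (fun _ => zero_le_one) (integrable_const _)
    (by simpa only [one_mul] using (hg.eg.const_mul y).integrable)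
    (by simpa only [one_mul] using (hg.exp_eg y).integrable) (by simp)
  simp only [one_mul, integral_const, probReal_univ, one_smul, div_one] at h3
  refine le_trans ?_ h3
  rw [← Real.exp_add]
  refine Real.exp_le_exp.2 ?_
  rw [integral_const_mul]
  nlinarith [mul_le_mul_of_nonneg_left (h2 z) hy]

end Vale.Agent.P146.H698.FO
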