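import Vale.Agent.P146.H698.FoA
import Vale.Agent.P146.H196.Gibm

/-!
# P146: integrating out Gaussian coordinates of a Gibbs measure

`Zm_glue_le`: the annealed bound of the partition function given the coordinates in `B`;
`lz_glue_ge`: Jensen for the logarithm.
-/

open MeasureTheory ProbabilityTheory

namespace Vale.Agent.P146.H698.FO

open Vale.Agent.P157.Lv hiding Dep
open Vale.Agent.P146.H425 Vale.Agent.P146.H646 Vale.Agent.P146.H119 Vale.Agent.P146.H196

set_option linter.unusedSectionVars false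

variable {κ : Type} [Fintype κ] [DecidableEq κ] {Ω : Type} [MeasurableSpace Ω]
  {μ : Measure Ω} {S : κ → Ω → ℝ} {M0 : ℝ}

lemma norm_glue_le (B : Finset κ) (z z' : κ → ℝ) : ‖glue B z z'‖ ≤ ‖z‖ + ‖z'‖ := by
  refine (pi_norm_le_iff_of_nonneg (by positivity)).2 fun e => ?_
  by_cases h : e ∈ B
  · rw [glue_mem h]
    exact (norm_le_pi_norm z e).trans (by linarith [norm_nonneg z'])
  · rw [glue_not_mem h]
    exact (norm_le_pi_norm z' e).trans (by linarith [norm_nonneg z])

lemma glue_add (B : Finset κ) (z z' : κ → ℝ) : glue B z z' = glue B z 0 + glue B 0 z' := by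
  funext e
  by_cases h : e ∈ B
  · simp [glue, h]
  · simp [glue, h]

/-- the annealed partition function given the coordinates in `B` -/
theorem int_Zm (hG : GM μ S M0) (B : Finset κ) (z : κ → ℝ) :
    ∫ z', Zm μ 1 S (glue B z z') ∂(gI κ) = ∫ w, ezm 1 S (glue B z 0) w *
      Real.exp ((∑ e, (if e ∈ B then 0 else S e w) ^ 2) / 2) ∂μ := by
  have := hG.fin
  have hm : Measurable fun q : (κ → ℝ) × Ω => ezm 1 S (glue B z q.1) q.2 := by
    unfold ezm
    refine Real.measurable_exp.comp (Measurable.const_mul (Finset.measurable_sum _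
      fun e _ => ((hG.meas e).comp measurable_snd).mul ?_) 1)
    exact (measurable_pi_apply e).comp ((measurable_glue_right B z).comp measurable_fst)
  have hK := hG.Km_nonneg 1
  have hi : Integrable (fun q : (κ → ℝ) × Ω => ezm 1 S (glue B z q.1) q.2)
      ((gI κ).prod μ) := by
    have h1 : Integrable (fun q : (κ → ℝ) × Ω =>
        Real.exp (Km κ 1 M0 * ‖z‖) * Real.exp (Km κ 1 M0 * ‖q.1‖)) ((gI κ).prod μ) :=
      ((integrable_exp_norm (Km κ 1 M0)).const_mul _).comp_fst μ
    refine h1.mono' hm.aestronglyMeasurable (Filter.Eventually.of_forall fun q => ?_)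
    rw [Real.norm_eq_abs, abs_of_pos (ezm_pos _ _), ← Real.exp_add, ← mul_add]
    unfold ezm
    refine Real.exp_le_exp.2 ((le_abs_self _).trans ((hG.abs_E 1 _ _).trans ?_))
    exact mul_le_mul_of_nonneg_left (norm_glue_le B z q.1) hK
  unfold Zm
  rw [integral_integral_swap hi]
  refine integral_congr_ae (Filter.Eventually.of_forall fun w => ?_)
  simp only
  have e1 : ∀ z', ezm 1 S (glue B z z') w =
      ezm 1 S (glue B z 0) w * Real.exp (∑ e, (if e ∈ B then 0 else S e w) * z' e) := by
    intro z'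
    unfold ezm
    rw [← Real.exp_add]
    congr 1
    rw [one_mul, one_mul, ← Finset.sum_add_distrib]
    refine Finset.sum_congr rfl fun e _ => ?_
    by_cases h : e ∈ B <;> simp [glue, h]
  rw [show (fun z' => ezm 1 S (glue B z z') w) = fun z' => ezm 1 S (glue B z 0) w *
    Real.exp (∑ e, (if e ∈ B then 0 else S e w) * z' e) from funext e1]
  rw [integral_const_mul, (H877.int_exp_lin fun e => if e ∈ B then 0 else S e w).2]

/-- **the annealed upper bound** -/
theorem Zm_glue_le (hG : GM μ S M0) (B : Finset κ) {c1 : ℝ}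
    (hc : ∀ w, ∑ e, (if e ∈ B then 0 else S e w) ^ 2 ≤ 2 * c1) (z : κ → ℝ) :
    ∫ z', Real.exp (lzm μ 1 S (glue B z z')) ∂(gI κ) ≤
      Real.exp (lzm μ 1 S (glue B z 0) + c1) := by
  have := hG.fin
  have e1 : ∀ z', Real.exp (lzm μ 1 S (glue B z z')) = Zm μ 1 S (glue B z z') := fun z' =>
    Real.exp_log (hG.Z_pos 1 _)
  have e2 : Real.exp (lzm μ 1 S (glue B z 0)) = Zm μ 1 S (glue B z 0) :=
    Real.exp_log (hG.Z_pos 1 _)
  simp only [e1]
  rw [int_Zm hG, Real.exp_add, e2]
  unfold Zm
  rw [← integral_mul_const]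
  have hb := hG.bez 1 (glue B z 0)
  refine integral_mono_of_nonneg (Filter.Eventually.of_forall fun w => by
    simp only [Pi.zero_apply]
    exact mul_nonneg (ezm_pos _ _).le (Real.exp_pos _).le) (hb.integrable.mul_const _)
    (Filter.Eventually.of_forall fun w => ?_)
  simp only
  exact mul_le_mul_of_nonneg_left (Real.exp_le_exp.2 (by linarith [hc w])) (ezm_pos _ _).le

/-- **Jensen** -/
theorem lz_glue_ge (hG : GM μ S M0) (B : Finset κ) (z : κ → ℝ) :
    lzm μ 1 S (glue B z 0) ≤ ∫ z', lzm μ 1 S (glue B z z') ∂(gI κ) := by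
  have h1 : ∀ z', lzm μ 1 S (glue B z 0) +
      ∑ e, 1 * avm μ 1 S (S e) (glue B z 0) * (glue B 0 z') e ≤ lzm μ 1 S (glue B z z') := by
    intro z'
    rw [glue_add B z z', hG.lz_add, ← hG.av_dE]
    have := hG.av_le_log 1 (glue B z 0) (glue B 0 z')
    linarith
  have h2 : ∀ e : κ, Integrable (fun z' : κ → ℝ =>
      1 * avm μ 1 S (S e) (glue B z 0) * (glue B 0 z') e) (gI κ) := by
    intro e
    by_cases h : e ∈ B
    · simp only [glue, h, if_true]
      exact integrable_const _
    · simp only [glue, h, if_false]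
      exact (EG.coord e).integrable.const_mul _
  have h3 : ∀ e : κ, ∫ z' : κ → ℝ,
      1 * avm μ 1 S (S e) (glue B z 0) * (glue B 0 z') e ∂(gI κ) = 0 := by
    intro e
    by_cases h : e ∈ B
    · simp [glue, h]
    · simp only [glue, h, if_false]
      rw [integral_const_mul, int_coord, mul_zero]
  have h4 := integral_mono ((integrable_const (lzm μ 1 S (glue B z 0))).add
    (integrable_finsetSum Finset.univ fun e _ => h2 e))
    (lip_glue_right (hG.lip 1) B z).eg.integrable h1
  refine le_trans (le_of_eq ?_) h4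
  rw [integral_add' (integrable_const _) (integrable_finsetSum Finset.univ fun e _ => h2 e),
    integral_finsetSum _ fun e _ => h2 e]
  simp only [h3, Finset.sum_const_zero, integral_const, probReal_univ, one_smul, add_zero]

end Vale.Agent.P146.H698.FO
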