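import Vale.Agent.P146.H698.FoB
import Vale.Agent.P146.H698.FoDef
import Vale.Agent.P146.H698.Kgrid

/-!
# P146: the fields of the modulated system are integrated out

`Fm` is the functional of the modulated SK system with levels, `Mass` the mass of the amplitude
weight. `B = Kset univ univ FL` (all the bonds, the field levels in `FL`), `R` the share of the
other fields:

* `two_up`: the functional with two exponents of `Fm`, exponent `m` off `Kset univ BL FL`, is at
  most `PsiV n b V y m T + n (R + s² (1+η)²) / 2 + log Mass`;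
* `one_low`: the functional of `Fm` is at least `Phn n b y V + log Mass`.
-/

open MeasureTheory ProbabilityTheory

namespace Vale.Agent.P146.H698.FO

open Vale.Agent.P157.Lv hiding Dep
open Vale.Agent.P146.H425 Vale.Agent.P146.H646 Vale.Agent.P146.H119 Vale.Agent.P146.H196
open Vale.Agent.P146.H246 Vale.Agent.P146.H347 Vale.Agent.P146.H816 Vale.Agent.P146.H475
open Vale.Agent.P146.H325 (sp abs_sp Tc SkS)
open Vale.Agent.P146.H332 (lz)
open Vale.Agent.P146.H9 (Fv Sf LPhi_eq Phn int_sum2 c11_Fv Fv_elim)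
open Vale.Agent.P146.H877 (FH LPhi)

set_option linter.unusedSectionVars false

/-! ### Lipschitz functions -/

section lip

variable {ι : Type} [Fintype ι] {F : (ι → ℝ) → ℝ}

lemma norm_diag_le (d u : ι → ℝ) : ‖fun e => d e * u e‖ ≤ (∑ e, |d e|) * ‖u‖ := by
  refine (pi_norm_le_iff_of_nonneg (by positivity)).2 fun e => ?_
  rw [norm_mul, Real.norm_eq_abs]
  exact mul_le_mul (Finset.single_le_sum (f := fun e => |d e|) (fun _ _ => abs_nonneg _)
    (Finset.mem_univ e)) (norm_le_pi_norm u e) (norm_nonneg _)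
    (Finset.sum_nonneg fun _ _ => abs_nonneg _)

lemma lip_aff (hF : Lip F) (a d : ι → ℝ) : Lip fun u => F fun e => a e + d e * u e := by
  obtain ⟨L, hL, h⟩ := hF
  refine ⟨L * ∑ e, |d e|, mul_nonneg hL (Finset.sum_nonneg fun _ _ => abs_nonneg _),
    fun u v => (h _ _).trans ?_⟩
  rw [mul_assoc]
  refine mul_le_mul_of_nonneg_left ?_ hL
  have e1 : ((fun e => a e + d e * u e) - fun e => a e + d e * v e) =
      fun e => d e * (u - v) e := by
    funext e
    simp only [Pi.sub_apply]
    ring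
  rw [e1]
  exact norm_diag_le d (u - v)

lemma lip_logint (hF : Lip F) (m : ℝ) (d1 d2 : ι → ℝ) :
    Lip fun u => Real.log (∫ u', Real.exp (m * F fun e => d1 e * u e + d2 e * u' e)
      ∂(gI ι)) := by
  obtain ⟨L, hL, h⟩ := id hF
  set D := ∑ e, |d1 e| with hD
  have hD0 : 0 ≤ D := Finset.sum_nonneg fun _ _ => abs_nonneg _
  have hint : ∀ u : ι → ℝ, Integrable (fun u' : ι → ℝ =>
      Real.exp (m * F fun e => d1 e * u e + d2 e * u' e)) (gI ι) := fun u =>
    ((lip_aff hF (fun e => d1 e * u e) d2).exp_eg m).integrable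
  have key : ∀ a b : ι → ℝ,
      Real.log (∫ u', Real.exp (m * F fun e => d1 e * a e + d2 e * u' e) ∂(gI ι)) ≤
      Real.log (∫ u', Real.exp (m * F fun e => d1 e * b e + d2 e * u' e) ∂(gI ι)) +
        |m| * (L * D) * ‖a - b‖ := by
    intro a b
    have pa := integral_exp_pos (hint a)
    have pb := integral_exp_pos (hint b)
    have h1 : ∫ u', Real.exp (m * F fun e => d1 e * a e + d2 e * u' e) ∂(gI ι) ≤
        (∫ u', Real.exp (m * F fun e => d1 e * b e + d2 e * u' e) ∂(gI ι)) *
          Real.exp (|m| * (L * D) * ‖a - b‖) := by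
      rw [← integral_mul_const]
      refine integral_mono (hint a) ((hint b).mul_const _) fun u' => ?_
      simp only
      rw [← Real.exp_add]
      refine Real.exp_le_exp.2 ?_
      have h2 := h (fun e => d1 e * a e + d2 e * u' e) fun e => d1 e * b e + d2 e * u' e
      have h3 : ‖(fun e => d1 e * a e + d2 e * u' e) - fun e => d1 e * b e + d2 e * u' e‖ ≤
          D * ‖a - b‖ := by
        have e1 : ((fun e => d1 e * a e + d2 e * u' e) - fun e => d1 e * b e + d2 e * u' e) =
            fun e => d1 e * (a - b) e := by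
          funext e
          simp only [Pi.sub_apply]
          ring
        rw [e1]
        exact norm_diag_le d1 (a - b)
      have h4 := h2.trans (mul_le_mul_of_nonneg_left h3 hL)
      have h5 : m * ((F fun e => d1 e * a e + d2 e * u' e) -
          F fun e => d1 e * b e + d2 e * u' e) ≤ |m| * (L * (D * ‖a - b‖)) := by
        refine (le_abs_self _).trans ?_
        rw [abs_mul]
        exact mul_le_mul_of_nonneg_left h4 (abs_nonneg m)
      linarith
    have h6 := Real.log_le_log pa h1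
    rwa [Real.log_mul pb.ne' (Real.exp_pos _).ne', Real.log_exp] at h6
  refine ⟨|m| * (L * D), by positivity, fun a b => ?_⟩
  rw [abs_le]
  have h1 := key a b
  have h2 := key b a
  rw [norm_sub_rev b a] at h2
  constructor <;> linarith

end lip

/-! ### the basic coordinates -/

variable {n : ℕ} {LB LF : Type} [Fintype LB] [DecidableEq LB] [Fintype LF] [DecidableEq LF]

/-- the basic coordinate -/
def pB (n : ℕ) (LB LF : Type) : Co n LB LF → Pair n ⊕ Fin n :=
  Sum.elim (Sum.elim (fun e => Sum.inl e.1) fun e => Sum.inr e.1) Sum.inr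

/-- the coefficients; only the field levels in `FL` are kept -/
noncomputable def cK (n : ℕ) (cB : LB → ℝ) (cF : LF → ℝ) (FL : Finset LF) : Co n LB LF → ℝ :=
  Sum.elim (Sum.elim (fun e => cB e.2) fun e => if e.2 ∈ FL then cF e.2 else 0) fun _ => 0

lemma fib_l (f : Co n LB LF → ℝ) (q : Pair n) :
    ∑ j with pB n LB LF j = Sum.inl q, f j = ∑ l, f (bd LF q l) := by
  rw [Finset.sum_filter, Fintype.sum_sum_type, Fintype.sum_sum_type, Fintype.sum_prod_type,
    Fintype.sum_prod_type]
  have h1 : ∀ (x : Pair n) (l : LB), (if pB n LB LF (Sum.inl (Sum.inl (x, l))) = Sum.inl q then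
      f (Sum.inl (Sum.inl (x, l))) else 0) = if x = q then f (bd LF x l) else 0 := by
    intro x l
    simp [pB]
  have h2 : ∀ (x : Fin n) (l : LF), (if pB n LB LF (Sum.inl (Sum.inr (x, l))) = Sum.inl q then
      f (Sum.inl (Sum.inr (x, l))) else 0) = 0 := by
    intro x l
    simp [pB]
  have h3 : ∀ x : Fin n, (if pB n LB LF (Sum.inr x) = Sum.inl q then
      f (Sum.inr x) else 0) = 0 := by
    intro x
    simp [pB]
  simp only [h1, h2, h3, Finset.sum_const_zero, add_zero]
  rw [Finset.sum_comm]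
  refine Finset.sum_congr rfl fun l _ => ?_
  rw [Finset.sum_ite_eq' Finset.univ q fun x => f (bd LF x l), if_pos (Finset.mem_univ q)]

lemma fib_r (f : Co n LB LF → ℝ) (i : Fin n) :
    ∑ j with pB n LB LF j = Sum.inr i, f j = ∑ l, f (fd LB i l) + f (gd LB LF i) := by
  rw [Finset.sum_filter, Fintype.sum_sum_type, Fintype.sum_sum_type, Fintype.sum_prod_type,
    Fintype.sum_prod_type]
  have h1 : ∀ (x : Pair n) (l : LB), (if pB n LB LF (Sum.inl (Sum.inl (x, l))) = Sum.inr i then
      f (Sum.inl (Sum.inl (x, l))) else 0) = 0 := by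
    intro x l
    simp [pB]
  have h2 : ∀ (x : Fin n) (l : LF), (if pB n LB LF (Sum.inl (Sum.inr (x, l))) = Sum.inr i then
      f (Sum.inl (Sum.inr (x, l))) else 0) = if x = i then f (fd LB x l) else 0 := by
    intro x l
    simp [pB]
  have h3 : ∀ x : Fin n, (if pB n LB LF (Sum.inr x) = Sum.inr i then
      f (Sum.inr x) else 0) = if x = i then f (gd LB LF x) else 0 := by
    intro x
    simp [pB]
  simp only [h1, h2, h3, Finset.sum_const_zero, zero_add]
  rw [Finset.sum_comm, Finset.sum_ite_eq' Finset.univ i fun x => f (gd LB LF x),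
    if_pos (Finset.mem_univ i)]
  congr 1
  refine Finset.sum_congr rfl fun l _ => ?_
  rw [Finset.sum_ite_eq' Finset.univ i fun x => f (fd LB x l), if_pos (Finset.mem_univ i)]

/-! ### the mass of the amplitudes -/

/-- the mass of the amplitude weight -/
noncomputable def Mass (lam η c : ℝ) : ℝ := ∫ t, cw η c t ∂(lap lam)

lemma Mass_pos {lam η : ℝ} (hl : 0 < lam) (hη : 0 ≤ η) (c : ℝ) : 0 < Mass lam η c := by
  have := isProb_lap hl
  have hi : Integrable (cw η c) (lap lam) :=
    Integrable.of_bound (measurable_cw η c).aestronglyMeasurable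
      (Real.exp (|c| / 2 * ((1 + η) ^ 2 + 1)))
      (Filter.Eventually.of_forall fun t => by
        rw [Real.norm_eq_abs, abs_of_pos (cw_pos η c t)]; exact cw_le hη c t)
  exact integral_exp_pos hi

variable {b s lam η c y m T V R : ℝ} {cB : LB → ℝ} {cF : LF → ℝ} {BL : Finset LB}
  {FL : Finset LF}

/-- the energy without the hidden coordinates -/
lemma energy (b : ℝ) (cB : LB → ℝ) (cF : LF → ℝ) (s η : ℝ) (FL : Finset LF) (z : Co n LB LF → ℝ)
    (w : ℝ × Xs n) :
    ∑ e, Sm b cB cF s η e w * glue (Kset Finset.univ Finset.univ FL) z 0 e =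
      ∑ e, Sf n b 1 e w.2 * lf (pB n LB LF) (cK n cB cF FL) z e := by
  unfold lf
  rw [sum_fib (pB n LB LF) (fun e => Sf n b 1 e w.2) fun j => cK n cB cF FL j * z j]
  refine Finset.sum_congr rfl fun e _ => ?_
  rcases e with (⟨q, l⟩ | ⟨i, l⟩) | j
  · have h1 : bd LF q l ∈ Kset Finset.univ Finset.univ FL := by
      rw [bd_memK]
      simp
    rw [glue_mem h1]
    show b / √n * cB l * SkS q w.2 * z (Sum.inl (Sum.inl (q, l))) =
      b / √n * SkS q w.2 * (cB l * z (Sum.inl (Sum.inl (q, l))))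
    ring
  · show cF l * sp w.2 i * _ = √1 * sp w.2 i * ((if l ∈ FL then cF l else 0) *
      z (Sum.inl (Sum.inr (i, l))))
    by_cases hl : l ∈ FL
    · have h1 : fd LB i l ∈ Kset Finset.univ (Finset.univ : Finset LB) FL := by
        rw [fd_memK]
        exact ⟨Finset.mem_univ _, hl⟩
      rw [glue_mem h1, if_pos hl, Real.sqrt_one]
      ring
    · have h1 : fd LB i l ∉ Kset Finset.univ (Finset.univ : Finset LB) FL := by
        rw [fd_memK]
        exact fun h => hl h.2
      rw [glue_not_mem h1, if_neg hl]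
      simp
  · rw [glue_not_mem (gd_memK j)]
    show _ = √1 * sp w.2 j * (0 * z (Sum.inr j))
    simp

/-- the functional without the hidden coordinates -/
theorem Fm_glue (hl : 0 < lam) (hη : 0 ≤ η) (b : ℝ) (cB : LB → ℝ) (cF : LF → ℝ) (s c : ℝ)
    (FL : Finset LF) (z : Co n LB LF → ℝ) :
    Fm n b cB cF s lam η c (glue (Kset Finset.univ Finset.univ FL) z 0) =
      Real.log (Mass lam η c) + Fv n b 1 (lf (pB n LB LF) (cK n cB cF FL) z) := by
  have := msx n
  have hG := gmA (n := n) b cB cF s hl hη c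
  have h1 : Zm (muA (Xs n) lam η c) 1 (Sm b cB cF s η)
      (glue (Kset Finset.univ Finset.univ FL) z 0) = Mass lam η c *
        H325.Zp 1 (Sf n b 1) (lf (pB n LB LF) (cK n cB cF FL) z) := by
    unfold Zm
    rw [integral_muA hl hη c (hG.bez 1 _)]
    unfold H325.Zp Mass
    rw [Finset.mul_sum]
    refine Finset.sum_congr rfl fun σ _ => ?_
    rw [← integral_mul_const]
    refine integral_congr_ae (Filter.Eventually.of_forall fun t => ?_)
    simp only
    unfold ezm H325.ez
    rw [energy]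
  unfold Fm lzm
  rw [h1, Real.log_mul (Mass_pos hl hη c).ne' (H325.Zp_pos _ _ _).ne']
  rfl

/-! ### the shares -/

lemma vf_l (cB : LB → ℝ) (cF : LF → ℝ) (FL : Finset LF) (q : Pair n) :
    vf (pB n LB LF) (cK n cB cF FL) (Sum.inl q) = ∑ l, cB l ^ 2 := by
  unfold vf
  rw [fib_l]
  rfl

lemma vf_r (cB : LB → ℝ) (cF : LF → ℝ) (FL : Finset LF) (i : Fin n) :
    vf (pB n LB LF) (cK n cB cF FL) (Sum.inr i) = ∑ l ∈ FL, cF l ^ 2 := by
  unfold vf
  rw [fib_r]
  have h1 : cK n cB cF FL (gd LB LF i) ^ 2 = 0 := by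
    show (0 : ℝ) ^ 2 = 0
    norm_num
  rw [h1, add_zero, ← Finset.sum_filter_add_sum_filter_not Finset.univ (fun l => l ∈ FL)]
  have h2 : ∑ l with l ∈ FL, cK n cB cF FL (fd LB i l) ^ 2 = ∑ l ∈ FL, cF l ^ 2 := by
    rw [Finset.filter_mem_eq_inter, Finset.univ_inter]
    refine Finset.sum_congr rfl fun l hl => ?_
    show (if l ∈ FL then cF l else 0) ^ 2 = _
    rw [if_pos hl]
  have h3 : ∑ l with l ∉ FL, cK n cB cF FL (fd LB i l) ^ 2 = 0 := by
    refine Finset.sum_eq_zero fun l hl => ?_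
    show (if l ∈ FL then cF l else 0) ^ 2 = _
    rw [if_neg (Finset.mem_filter.1 hl).2]
    norm_num
  rw [h2, h3, add_zero]

lemma vf_co_l (cB : LB → ℝ) (cF : LF → ℝ) (BL : Finset LB) (FL : Finset LF) (q : Pair n) :
    vf (pB n LB LF) (co (Kset Finset.univ BL FL) (cK n cB cF FL)) (Sum.inl q) =
      ∑ l, cB l ^ 2 - ∑ l ∈ BL, cB l ^ 2 := by
  unfold vf
  rw [fib_l, ← Finset.sum_filter_add_sum_filter_not Finset.univ (fun l => l ∈ BL),
    ← Finset.sum_filter_add_sum_filter_not Finset.univ (fun l => l ∈ BL) fun l => cB l ^ 2]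
  have h1 : ∑ l with l ∈ BL, co (Kset Finset.univ BL FL) (cK n cB cF FL) (bd LF q l) ^ 2 =
      0 := by
    refine Finset.sum_eq_zero fun l hl => ?_
    have h2 : bd LF q l ∈ Kset Finset.univ BL FL := by
      rw [bd_memK]
      exact ⟨⟨Finset.mem_univ _, Finset.mem_univ _⟩, (Finset.mem_filter.1 hl).2⟩
    unfold co
    rw [if_pos h2]
    norm_num
  have h3 : ∑ l with l ∉ BL, co (Kset Finset.univ BL FL) (cK n cB cF FL) (bd LF q l) ^ 2 =
      ∑ l with l ∉ BL, cB l ^ 2 := by
    refine Finset.sum_congr rfl fun l hl => ?_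
    have h2 : bd LF q l ∉ Kset Finset.univ BL FL := by
      rw [bd_memK]
      exact fun h => (Finset.mem_filter.1 hl).2 h.2
    unfold co
    rw [if_neg h2]
    rfl
  rw [h1, h3, Finset.filter_mem_eq_inter, Finset.univ_inter]
  ring

lemma vf_co_r (cB : LB → ℝ) (cF : LF → ℝ) (BL : Finset LB) (FL : Finset LF) (i : Fin n) :
    vf (pB n LB LF) (co (Kset Finset.univ BL FL) (cK n cB cF FL)) (Sum.inr i) = 0 := by
  unfold vf
  rw [fib_r]
  have h1 : co (Kset Finset.univ BL FL) (cK n cB cF FL) (gd LB LF i) ^ 2 = 0 := by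
    unfold co
    rw [if_neg (gd_memK i)]
    show (0 : ℝ) ^ 2 = 0
    norm_num
  rw [h1, add_zero]
  refine Finset.sum_eq_zero fun l _ => ?_
  by_cases hl : l ∈ FL
  · have h2 : fd LB i l ∈ Kset Finset.univ BL FL := by
      rw [fd_memK]
      exact ⟨Finset.mem_univ _, hl⟩
    unfold co
    rw [if_pos h2]
    norm_num
  · have h2 : fd LB i l ∉ Kset Finset.univ BL FL := by
      rw [fd_memK]
      exact fun h => hl h.2
    unfold co
    rw [if_neg h2]
    show (if l ∈ FL then cF l else 0) ^ 2 = 0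
    rw [if_neg hl]
    norm_num

lemma vf_re_l (cB : LB → ℝ) (cF : LF → ℝ) (BL : Finset LB) (FL : Finset LF) (q : Pair n) :
    vf (pB n LB LF) (re (Kset Finset.univ BL FL) (cK n cB cF FL)) (Sum.inl q) =
      ∑ l ∈ BL, cB l ^ 2 := by
  have h1 := vf_split (pB n LB LF) (cK n cB cF FL) (Kset Finset.univ BL FL) (Sum.inl q)
  rw [vf_co_l, vf_l] at h1
  linarith

lemma vf_re_r (cB : LB → ℝ) (cF : LF → ℝ) (BL : Finset LB) (FL : Finset LF) (i : Fin n) :
    vf (pB n LB LF) (re (Kset Finset.univ BL FL) (cK n cB cF FL)) (Sum.inr i) =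
      ∑ l ∈ FL, cF l ^ 2 := by
  have h1 := vf_split (pB n LB LF) (cK n cB cF FL) (Kset Finset.univ BL FL) (Sum.inr i)
  rw [vf_co_r, vf_r] at h1
  linarith

/-! ### the field of the hidden coordinates -/

lemma hidden_sq (hη : 0 ≤ η) (b : ℝ) (cB : LB → ℝ) (cF : LF → ℝ) (s : ℝ) (FL : Finset LF)
    (w : ℝ × Xs n) :
    ∑ e, (if e ∈ Kset Finset.univ (Finset.univ : Finset LB) FL then 0 else
      Sm b cB cF s η e w) ^ 2 ≤
      2 * (n * ((∑ l, cF l ^ 2 - ∑ l ∈ FL, cF l ^ 2) + s ^ 2 * (1 + η) ^ 2) / 2) := by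
  have hp : ∀ (q : Pair n) (l : LB),
      (if (Sum.inl (Sum.inl (q, l)) : Co n LB LF) ∈
        Kset Finset.univ (Finset.univ : Finset LB) FL then 0 else
        Sm b cB cF s η (Sum.inl (Sum.inl (q, l)) : Co n LB LF) w) ^ 2 = 0 := by
    intro q l
    have h1 : bd LF q l ∈ Kset Finset.univ Finset.univ FL := by
      rw [bd_memK]
      simp
    rw [if_pos h1]
    norm_num
  have hf : ∀ (i : Fin n) (l : LF),
      (if (Sum.inl (Sum.inr (i, l)) : Co n LB LF) ∈
        Kset Finset.univ (Finset.univ : Finset LB) FL then 0 else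
        Sm b cB cF s η (Sum.inl (Sum.inr (i, l)) : Co n LB LF) w) ^ 2 =
        if l ∈ FL then 0 else cF l ^ 2 := by
    intro i l
    by_cases hl : l ∈ FL
    · have h1 : fd LB i l ∈ Kset Finset.univ (Finset.univ : Finset LB) FL := by
        rw [fd_memK]
        exact ⟨Finset.mem_univ _, hl⟩
      rw [if_pos h1, if_pos hl]
      norm_num
    · have h1 : fd LB i l ∉ Kset Finset.univ (Finset.univ : Finset LB) FL := by
        rw [fd_memK]
        exact fun h => hl h.2
      rw [if_neg h1, if_neg hl]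
      show (cF l * sp w.2 i) ^ 2 = _
      rw [mul_pow, ← sq_abs (sp w.2 i), abs_sp]
      ring
  have hg : ∀ i : Fin n,
      (if (Sum.inr i : Co n LB LF) ∈
        Kset Finset.univ (Finset.univ : Finset LB) FL then 0 else
        Sm b cB cF s η (Sum.inr i : Co n LB LF) w) ^ 2 ≤ s ^ 2 * (1 + η) ^ 2 := by
    intro i
    rw [if_neg (gd_memK i)]
    show (al η w.1 * s * sp w.2 i) ^ 2 ≤ _
    rw [mul_pow, mul_pow, ← sq_abs (sp w.2 i), abs_sp, one_pow, mul_one, mul_comm]
    refine mul_le_mul_of_nonneg_left ?_ (sq_nonneg s)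
    rw [← sq_abs]
    refine pow_le_pow_left₀ (abs_nonneg _) ?_ 2
    have := al_mem hη w.1
    rw [abs_le]
    constructor <;> linarith [this.1, this.2]
  rw [Fintype.sum_sum_type, Fintype.sum_sum_type, Fintype.sum_prod_type, Fintype.sum_prod_type]
  simp only [hp, hf, Finset.sum_const_zero, zero_add]
  have h2 : ∑ l, (if l ∈ FL then 0 else cF l ^ 2) = ∑ l, cF l ^ 2 - ∑ l ∈ FL, cF l ^ 2 := by
    rw [← Finset.sum_filter_add_sum_filter_not Finset.univ (fun l => l ∈ FL) fun l => cF l ^ 2,
      Finset.filter_mem_eq_inter, Finset.univ_inter, add_sub_cancel_left, Finset.sum_filter]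
    refine Finset.sum_congr rfl fun l _ => ?_
    by_cases hl : l ∈ FL <;> simp [hl]
  rw [h2, Finset.sum_const, Finset.card_univ, Fintype.card_fin, nsmul_eq_mul]
  have h3 := Finset.sum_le_card_nsmul Finset.univ _ _ fun i _ => hg i
  rw [Finset.card_univ, Fintype.card_fin, nsmul_eq_mul] at h3
  linarith

/-! ### the two bounds -/

lemma lip_Fv (n : ℕ) (b v : ℝ) : Lip (Fv n b v) := (c11_Fv n b v).lip.lip (c11_Fv n b v).B0

/-- the functional without the hidden coordinates as a function of the basic coordinates -/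
noncomputable def F0 (n : ℕ) (b lam η c : ℝ) (u : Pair n ⊕ Fin n → ℝ) : ℝ :=
  Real.log (Mass lam η c) + Fv n b 1 u

lemma lip_F0 (n : ℕ) (b lam η c : ℝ) : Lip (F0 n b lam η c) :=
  (Lip.const _).add (lip_Fv n b 1)

/-- the functional without the hidden coordinates -/
noncomputable def Fb (n : ℕ) (b : ℝ) (cB : LB → ℝ) (cF : LF → ℝ) (lam η c : ℝ) (FL : Finset LF)
    (z : Co n LB LF → ℝ) : ℝ := F0 n b lam η c (lf (pB n LB LF) (cK n cB cF FL) z)

lemma lip_Fb (hl : 0 < lam) (hη : 0 ≤ η) (b : ℝ) (cB : LB → ℝ) (cF : LF → ℝ) (c : ℝ)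
    (FL : Finset LF) : Lip (Fb n b cB cF lam η c FL) := by
  have h1 : Fb n b cB cF lam η c FL = fun z =>
      Fm n b cB cF 0 lam η c (glue (Kset Finset.univ Finset.univ FL) z 0) := by
    funext z
    exact (Fm_glue hl hη b cB cF 0 c FL z).symm
  rw [h1]
  exact lip_glue_left (lev_sk (n := n) b cB cF 0 c hl hη).lip _ 0

/-- a point of the basic coordinates -/
lemma F0_elim (b lam η c : ℝ) (g : Pair n → ℝ) (h : Fin n → ℝ) :
    F0 n b lam η c (Sum.elim g h) = Real.log (Mass lam η c) + FH n b h g := by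
  unfold F0
  rw [Fv_elim, Real.sqrt_one, one_smul]

/-- **The functional with two exponents of the modulated system.** -/
theorem two_up (hl : 0 < lam) (hη : 0 ≤ η) (hy : 0 < y) (hym : y ≤ m) (hm1 : m ≤ 1)
    (BL : Finset LB) (FL : Finset LF) (hB : ∑ l, cB l ^ 2 = 1)
    (hT : ∑ l ∈ BL, cB l ^ 2 = 1 - T) (hV : ∑ l ∈ FL, cF l ^ 2 = V)
    (hR : ∑ l, cF l ^ 2 = V + R) :
    1 / y * Real.log (∫ z, Real.exp (y / m * lwn m (Fm n b cB cF s lam η c)
      (Kset Finset.univ BL FL) z) ∂(gI (Co n LB LF))) ≤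
      PsiV n b V y m T + n * (R + s ^ 2 * (1 + η) ^ 2) / 2 + Real.log (Mass lam η c) := by
  have hm0 : 0 < m := hy.trans_le hym
  have hG := gmA (n := n) b cB cF s hl hη c
  have hL := (lev_sk (n := n) b cB cF s c hl hη).lip
  have hLb := lip_Fb (n := n) hl hη b cB cF c FL
  set c1 : ℝ := n * (R + s ^ 2 * (1 + η) ^ 2) / 2 with hc1
  set Lg : ℝ := Real.log (Mass lam η c) with hLg
  have hK : Kset Finset.univ BL FL ⊆ Kset (Finset.univ : Finset (Fin n)) Finset.univ FL :=
    Kset_mono (Finset.Subset.refl _) (Finset.subset_univ _) (Finset.Subset.refl _)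
  have a1 : ∀ z, ∫ z', Real.exp (Fm n b cB cF s lam η c
      (glue (Kset Finset.univ Finset.univ FL) z z')) ∂(gI (Co n LB LF)) ≤
      Real.exp (Fb n b cB cF lam η c FL z + c1) := by
    intro z
    have h1 := Zm_glue_le hG (Kset Finset.univ Finset.univ FL) (c1 := c1) (fun w => by
      have := hidden_sq (n := n) hη b cB cF s FL w
      rw [hR, hV, add_sub_cancel_left] at this
      exact this) z
    have h2 := Fm_glue (n := n) hl hη b cB cF s c FL z
    unfold Fm at h2
    rw [h2] at h1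
    exact h1
  have a2 := two_le hL hLb hK hy.le hm0 hm1 a1
  -- the Gaussian law of the basic coordinates
  set r1 : Pair n ⊕ Fin n → ℝ :=
    vf (pB n LB LF) (re (Kset Finset.univ BL FL) (cK n cB cF FL)) with hr1
  set r2 : Pair n ⊕ Fin n → ℝ :=
    vf (pB n LB LF) (co (Kset Finset.univ BL FL) (cK n cB cF FL)) with hr2
  have e1l : ∀ q, r1 (Sum.inl q) = 1 - T := fun q => by rw [hr1, vf_re_l, hT]
  have e1r : ∀ i, r1 (Sum.inr i) = V := fun i => by rw [hr1, vf_re_r, hV]
  have e2l : ∀ q, r2 (Sum.inl q) = T := fun q => by rw [hr2, vf_co_l, hB, hT]; ring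
  have e2r : ∀ i, r2 (Sum.inr i) = 0 := fun i => by rw [hr2, vf_co_r]
  have hF0 := lip_F0 n b lam η c
  have hFv := lip_Fv n b 1
  -- the inner functional
  set G : (Pair n ⊕ Fin n → ℝ) → ℝ := fun u => Real.log (∫ u', Real.exp (m *
    Fv n b 1 fun e => √(r1 e) * u e + √(r2 e) * u' e) ∂(gI (Pair n ⊕ Fin n))) with hGd
  have lG : Lip G := lip_logint hFv m (fun e => √(r1 e)) fun e => √(r2 e)
  have a3 : ∫ z, Real.exp (y / m * lwn m (Fb n b cB cF lam η c FL)
      (Kset Finset.univ BL FL) z) ∂(gI (Co n LB LF)) =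
      ∫ u, Real.exp (y / m * (m * Lg + G u)) ∂(gI (Pair n ⊕ Fin n)) := by
    have w0 : Measurable fun u => Real.exp (m * F0 n b lam η c u) := (hF0.exp_eg m).meas
    have b1 : ∀ z, lwn m (Fb n b cB cF lam η c FL) (Kset Finset.univ BL FL) z =
        Real.log (Tc r2 (fun u => Real.exp (m * F0 n b lam η c u))
          (lf (pB n LB LF) (re (Kset Finset.univ BL FL) (cK n cB cF FL)) z)) := by
      intro z
      unfold lwn Fb
      rw [wn_T w0]
    simp only [b1]
    have b2 : ∀ v : Pair n ⊕ Fin n → ℝ,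
        Real.log (Tc r2 (fun u => Real.exp (m * F0 n b lam η c u)) v) = m * Lg +
          Real.log (∫ u', Real.exp (m * Fv n b 1 fun e => v e + √(r2 e) * u' e)
            ∂(gI (Pair n ⊕ Fin n))) := by
      intro v
      unfold Tc F0
      have b3 : ∀ u' : Pair n ⊕ Fin n → ℝ, Real.exp (m * (Real.log (Mass lam η c) +
          Fv n b 1 fun e => v e + √(r2 e) * u' e)) = Real.exp (m * Lg) *
          Real.exp (m * Fv n b 1 fun e => v e + √(r2 e) * u' e) := by
        intro u'
        rw [← Real.exp_add, mul_add]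
      simp only [b3]
      rw [integral_const_mul, Real.log_mul (Real.exp_pos _).ne'
        (integral_exp_pos ((lip_aff hFv v fun e => √(r2 e)).exp_eg m).integrable).ne',
        Real.log_exp]
    simp only [b2]
    have b4 : Measurable fun v : Pair n ⊕ Fin n → ℝ => Real.exp (y / m * (m * Lg +
        Real.log (∫ u', Real.exp (m * Fv n b 1 fun e => v e + √(r2 e) * u' e)
            ∂(gI (Pair n ⊕ Fin n))))) := by
      have h1 := lip_logint hFv m (fun _ => 1) fun e => √(r2 e)
      simp only [one_mul] at h1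
      exact Real.measurable_exp.comp ((measurable_const.add h1.measurable).const_mul _)
    rw [int_lf (pB n LB LF) (re (Kset Finset.univ BL FL) (cK n cB cF FL)) b4]
  -- the constant
  have a4 : ∫ u, Real.exp (y / m * (m * Lg + G u)) ∂(gI (Pair n ⊕ Fin n)) =
      Real.exp (y * Lg) * ∫ u, Real.exp (y / m * G u) ∂(gI (Pair n ⊕ Fin n)) := by
    rw [← integral_const_mul]
    refine integral_congr_ae (Filter.Eventually.of_forall fun u => ?_)
    simp only
    rw [← Real.exp_add]
    congr 1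
    field_simp
  -- bonds and fields
  have a5 : ∫ u, Real.exp (y / m * G u) ∂(gI (Pair n ⊕ Fin n)) =
      ∫ z, ∫ g, Real.exp (y / m * Real.log (∫ g', Real.exp (m *
        FH n b (√V • z) (√(1 - T) • g + √T • g')) ∂(disorder n))) ∂(disorder n)
          ∂(gI (Fin n)) := by
    rw [int_sum2 (lG.exp_eg (y / m))]
    refine integral_congr_ae (Filter.Eventually.of_forall fun h => ?_)
    simp only
    refine integral_congr_ae (Filter.Eventually.of_forall fun g => ?_)
    simp only
    congr 2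
    rw [hGd]
    simp only
    congr 1
    rw [int_sum2 ((lip_aff hFv (fun e => √(r1 e) * (Sum.elim g h : Pair n ⊕ Fin n → ℝ) e)
      fun e => √(r2 e)).exp_eg m)]
    have b1 : ∀ (h' : Fin n → ℝ) (g' : Pair n → ℝ),
        (fun e => √(r1 e) * (Sum.elim g h : Pair n ⊕ Fin n → ℝ) e +
          √(r2 e) * (Sum.elim g' h' : Pair n ⊕ Fin n → ℝ) e) =
        (Sum.elim (√(1 - T) • g + √T • g') (√V • h) : Pair n ⊕ Fin n → ℝ) := by
      intro h' g'
      funext e
      rcases e with q | i
      · simp only [Sum.elim_inl, e1l, e2l, Pi.add_apply, Pi.smul_apply, smul_eq_mul]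
      · simp only [Sum.elim_inr, e1r, e2r, Real.sqrt_zero, zero_mul, add_zero, Pi.smul_apply,
          smul_eq_mul]
    simp only [b1, Fv_elim, Real.sqrt_one, one_smul, integral_const, probReal_univ]
    rfl
  rw [a3, a4, a5] at a2
  have p1 : 0 < ∫ z, Real.exp (y / m * lwn m (Fm n b cB cF s lam η c)
      (Kset Finset.univ BL FL) z) ∂(gI (Co n LB LF)) :=
    integral_exp_pos ((lip_lwn hL m _).exp_eg _).integrable
  have p2 : 0 < ∫ z, ∫ g, Real.exp (y / m * Real.log (∫ g', Real.exp (m *
        FH n b (√V • z) (√(1 - T) • g + √T • g')) ∂(disorder n))) ∂(disorder n)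
          ∂(gI (Fin n)) := by
    rw [← a5]
    exact integral_exp_pos (lG.exp_eg _).integrable
  have a6 := Real.log_le_log p1 a2
  rw [Real.log_mul (Real.exp_pos _).ne' (mul_pos (Real.exp_pos _) p2).ne',
    Real.log_mul (Real.exp_pos _).ne' p2.ne', Real.log_exp, Real.log_exp] at a6
  have a7 := mul_le_mul_of_nonneg_left a6 (show 0 ≤ 1 / y by positivity)
  refine a7.trans (le_of_eq ?_)
  unfold PsiV
  field_simp
  ring

/-- **The functional of the modulated system, from below.** -/
theorem one_low (hl : 0 < lam) (hη : 0 ≤ η) (hy : 0 < y) (FL : Finset LF)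
    (hB : ∑ l, cB l ^ 2 = 1) (hV : ∑ l ∈ FL, cF l ^ 2 = V) :
    Phn n b y V + Real.log (Mass lam η c) ≤
      1 / y * Real.log (∫ z, Real.exp (y * Fm n b cB cF s lam η c z)
        ∂(gI (Co n LB LF))) := by
  have hG := gmA (n := n) b cB cF s hl hη c
  have hL := (lev_sk (n := n) b cB cF s c hl hη).lip
  have hLb := lip_Fb (n := n) hl hη b cB cF c FL
  set Lg : ℝ := Real.log (Mass lam η c) with hLg
  have a1 : ∀ z, Fb n b cB cF lam η c FL z - 0 ≤ ∫ z', Fm n b cB cF s lam η c
      (glue (Kset Finset.univ Finset.univ FL) z z') ∂(gI (Co n LB LF)) := by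
    intro z
    have h1 := lz_glue_ge hG (Kset Finset.univ Finset.univ FL) z
    have h2 := Fm_glue (n := n) hl hη b cB cF s c FL z
    unfold Fm at h2
    rw [h2] at h1
    rw [sub_zero]
    exact h1
  have a2 := one_ge hL hLb hy.le a1
  rw [mul_zero, neg_zero, Real.exp_zero, one_mul] at a2
  set r : Pair n ⊕ Fin n → ℝ := vf (pB n LB LF) (cK n cB cF FL) with hr
  have el : ∀ q, r (Sum.inl q) = 1 := fun q => by rw [hr, vf_l, hB]
  have er : ∀ i, r (Sum.inr i) = V := fun i => by rw [hr, vf_r, hV]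
  have hF0 := lip_F0 n b lam η c
  have hFv := lip_Fv n b 1
  have a3 : ∫ z, Real.exp (y * Fb n b cB cF lam η c FL z) ∂(gI (Co n LB LF)) =
      Real.exp (y * Lg) * ∫ z, ∫ g, Real.exp (y * FH n b (√V • z) g) ∂(disorder n)
        ∂(gI (Fin n)) := by
    unfold Fb
    rw [int_lf (pB n LB LF) (cK n cB cF FL) (G := fun u => Real.exp (y * F0 n b lam η c u))
      (hF0.exp_eg y).meas]
    have b1 : ∀ u : Pair n ⊕ Fin n → ℝ, Real.exp (y * F0 n b lam η c fun e => √(r e) * u e) =
        Real.exp (y * Lg) * Real.exp (y * Fv n b 1 fun e => √(r e) * u e) := by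
      intro u
      unfold F0
      rw [← Real.exp_add, mul_add]
    have b2 : EG fun u : Pair n ⊕ Fin n → ℝ =>
        Real.exp (y * Fv n b 1 fun e => √(r e) * u e) := by
      have h1 := (lip_aff hFv (fun _ => 0) fun e => √(r e)).exp_eg y
      simpa only [zero_add] using h1
    simp only [← hr, b1]
    rw [integral_const_mul, int_sum2 b2]
    congr 1
    refine integral_congr_ae (Filter.Eventually.of_forall fun h => ?_)
    simp only
    refine integral_congr_ae (Filter.Eventually.of_forall fun g => ?_)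
    simp only
    congr 2
    have b3 : (fun e => √(r e) * (Sum.elim g h : Pair n ⊕ Fin n → ℝ) e) =
        (Sum.elim g (√V • h) : Pair n ⊕ Fin n → ℝ) := by
      funext e
      rcases e with q | i
      · simp only [Sum.elim_inl, el, Real.sqrt_one, one_mul]
      · simp only [Sum.elim_inr, er, Pi.smul_apply, smul_eq_mul]
    rw [b3, Fv_elim, Real.sqrt_one, one_smul]
  have p1 : 0 < ∫ z, Real.exp (y * Fb n b cB cF lam η c FL z) ∂(gI (Co n LB LF)) :=
    integral_exp_pos (hLb.exp_eg y).integrable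
  have a4 := Real.log_le_log p1 a2
  rw [a3] at a4 p1
  have p2 := pos_of_mul_pos_right p1 (Real.exp_pos _).le
  rw [Real.log_mul (Real.exp_pos _).ne' p2.ne', Real.log_exp] at a4
  have a5 := mul_le_mul_of_nonneg_left a4 (show 0 ≤ 1 / y by positivity)
  refine le_trans (le_of_eq ?_) a5
  unfold Phn LPhi
  field_simp
  ring

end Vale.Agent.P146.H698.FO
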